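import Vale.Agent.P082.Central.Homotopy

/-!
# P082 (B): cochains at sequences, insertion and the differential as a cochain
-/

namespace Vale.Agent.P082.Every.B

open Central (res merge hochDiff_res)

universe u

variable {H : Type u} [NormedAddCommGroup H] [InnerProductSpace ℂ H] [CompleteSpace H]
variable {M : VonNeumannAlgebra H}

/-- Insert `a` at `i`. -/
def ins {α : Type*} (i : ℕ) (a : α) (s : ℕ → α) (m : ℕ) : α :=
  if m < i then s m else if m = i then a else s (m - 1)

/-- Remove the entry `p`. -/
def drop {α : Type*} (p : ℕ) (s : ℕ → α) (m : ℕ) : α := if m < p then s m else s (m + 1)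

theorem ins_drop {α : Type*} (p : ℕ) (s : ℕ → α) : ins p (s p) (drop p s) = s := by
  funext m
  simp only [ins, drop]
  split_ifs <;> first | rfl | omega | (congr 1; omega)

theorem ins_self {α : Type*} (p : ℕ) (a : α) (s : ℕ → α) : ins p a s p = a := by simp [ins]

theorem tail_ins_zero {α : Type*} (a : α) (s : ℕ → α) : (fun m => ins 0 a s (m + 1)) = s := by
  funext m; simp [ins]

theorem merge_ins_left {α : Type*} [Mul α] (q : ℕ) (a : α) (s : ℕ → α) :
    merge q (ins (q + 1) a s) = Function.update s q (s q * a) := by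
  funext m
  rcases lt_trichotomy m q with h | h | h
  · simp [merge, ins, h, show m < q + 1 by omega, h.ne]
  · simp [merge, ins, h]
  · simp [merge, ins, h.ne', show ¬ m < q by omega,
      show ¬ m + 1 < q + 1 by omega]

theorem merge_ins_right {α : Type*} [Mul α] (q : ℕ) (a : α) (s : ℕ → α) :
    merge q (ins q a s) = Function.update s q (a * s q) := by
  funext m
  rcases lt_trichotomy m q with h | h | h
  · simp [merge, ins, h, h.ne]
  · simp [merge, ins, h]
  · simp [merge, ins, h.ne', show ¬ m < q by omega, show ¬ m + 1 < q by omega,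
      show ¬ m + 1 = q by omega]

theorem res_congr {N : ℕ} {s s' : ℕ → Alg M} (h : ∀ m < N, s m = s' m) : res N s = res N s' :=
  funext fun m => h m m.2

theorem exists_res {N : ℕ} (a : Fin N → Alg M) : ∃ s, res N s = a :=
  ⟨fun m => if h : m < N then a ⟨m, h⟩ else 0, funext fun m => by simp [res, m.2]⟩

theorem curryMid_res {N : ℕ} (f : Cochain M (N + 1)) (i : Fin (N + 1)) (u : Alg M)
    (s : ℕ → Alg M) : f.curryMid i u (res N s) = f (res (N + 1) (ins i u s)) := by
  rw [ContinuousMultilinearMap.curryMid_apply]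
  congr 1
  funext m
  induction m using Fin.succAboveCases i with
  | x => simp [res, ins]
  | p m =>
    rw [Fin.insertNth_apply_succAbove]
    rcases Nat.lt_or_ge (m : ℕ) i with h | h
    · rw [Fin.succAbove_of_castSucc_lt _ _ (by simpa [Fin.lt_def] using h)]
      simp [res, ins, h]
    · rw [Fin.succAbove_of_le_castSucc _ _ (by simpa [Fin.le_def] using h)]
      simp [res, ins, show ¬ (m : ℕ) + 1 < i by omega, show ¬ (m : ℕ) + 1 = i by omega]

/-! ### The differential as a cochain -/

/-- `a ↦ a₀ * g (a₁, …)`. -/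
noncomputable def firstC {n : ℕ} (g : Cochain M n) : Cochain M (n + 1) :=
  ((ContinuousLinearMap.compContinuousMultilinearMapL ℂ (fun _ : Fin n => Alg M) (Alg M)
    (Alg M)).flip g |>.comp (ContinuousLinearMap.mul ℂ (Alg M))).uncurryLeft

theorem firstC_apply {n : ℕ} (g : Cochain M n) (a : Fin (n + 1) → Alg M) :
    firstC g a = a 0 * g (Fin.tail a) := rfl

/-- `a ↦ g (…, aₙ₋₁) * aₙ`. -/
noncomputable def lastC {n : ℕ} (g : Cochain M n) : Cochain M (n + 1) :=
  ((ContinuousLinearMap.mul ℂ (Alg M)).compContinuousMultilinearMap g).uncurryRight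

theorem lastC_apply {n : ℕ} (g : Cochain M n) (a : Fin (n + 1) → Alg M) :
    lastC g a = g (Fin.init a) * a (Fin.last n) := rfl

/-- `a ↦ g (…, aⱼ aⱼ₊₁, …)`. -/
noncomputable def mergeC {k : ℕ} (g : Cochain M (k + 1)) (j : Fin (k + 1)) : Cochain M (k + 1 + 1) :=
  ((ContinuousMultilinearMap.curryMidEquiv ℂ (fun _ : Fin (k + 1) => Alg M) (Alg M) j).symm
      |>.toContinuousLinearEquiv.toContinuousLinearMap.comp
        ((ContinuousLinearMap.compL ℂ (Alg M) (Alg M) (Cochain M k) (g.curryMid j)).comp
          (ContinuousLinearMap.mul ℂ (Alg M)))).uncurryMid j.castSucc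

theorem mergeC_apply {k : ℕ} (g : Cochain M (k + 1)) (j : Fin (k + 1))
    (a : Fin (k + 1 + 1) → Alg M) :
    mergeC g j a = g (Fin.contractNth j.castSucc (· * ·) a) := by
  change g (j.insertNth (a j.castSucc * j.castSucc.removeNth a j)
    (j.removeNth (j.castSucc.removeNth a))) = _
  congr 1
  funext m
  induction m using Fin.succAboveCases j with
  | x =>
    rw [Fin.insertNth_apply_same, Fin.contractNth_apply_of_eq _ _ _ _ (by simp)]
    simp [Fin.removeNth, Fin.succAbove_castSucc_self]
  | p m =>
    rw [Fin.insertNth_apply_succAbove]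
    rcases Nat.lt_or_ge (m : ℕ) j with h | h
    · have h' : j.succAbove m = m.castSucc :=
        Fin.succAbove_of_castSucc_lt _ _ (by simpa [Fin.lt_def] using h)
      rw [Fin.contractNth_apply_of_lt _ _ _ _ (by simpa [h'] using h)]
      simp only [Fin.removeNth, h']
      rw [Fin.succAbove_of_castSucc_lt _ _ (by simpa [Fin.lt_def] using h)]
    · have h' : j.succAbove m = m.succ :=
        Fin.succAbove_of_le_castSucc _ _ (by simpa [Fin.le_def] using h)
      rw [Fin.contractNth_apply_of_gt _ _ _ _ (by simp [h']; omega)]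
      simp only [Fin.removeNth, h']
      rw [Fin.succAbove_of_le_castSucc _ _ (by simp [Fin.le_def]; omega)]

theorem mergeC_res {k : ℕ} (g : Cochain M (k + 1)) (j : Fin (k + 1)) (s : ℕ → Alg M) :
    mergeC g j (res (k + 1 + 1) s) = g (res (k + 1) (merge j s)) := by
  rw [mergeC_apply]
  congr 1

theorem firstC_res {n : ℕ} (g : Cochain M n) (s : ℕ → Alg M) :
    firstC g (res (n + 1) s) = s 0 * g (res n fun m => s (m + 1)) := rfl

/-- The differential of a cochain. -/
noncomputable def dC : {n : ℕ} → Cochain M n → Cochain M (n + 1)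
  | 0, g => firstC g - lastC g
  | k + 1, g => firstC g + ∑ j : Fin (k + 1), (-1 : ℂ) ^ (j.val + 1) • mergeC g j +
      (-1 : ℂ) ^ (k + 1 + 1) • lastC g

theorem dC_apply : ∀ {n : ℕ} (g : Cochain M n) (a : Fin (n + 1) → Alg M), dC g a = hochDiff g a
  | 0, g, a => by simp [dC, hochDiff, firstC_apply, lastC_apply, sub_eq_add_neg]
  | k + 1, g, a => by
    simp only [dC, hochDiff, add_apply, smul_apply, _root_.sum_apply, firstC_apply,
      lastC_apply, mergeC_apply]

end Vale.Agent.P082.Every.B
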