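import Vale.Agent.P082.Every.B.Mean
import Vale.Agent.P082.Every.B.Seq

/-!
# P082 (B): cochains averaged over the pair

`val` and `mu` keep the terms of the later computations small.
-/

namespace Vale.Agent.P082.Every.B

open Central (res merge)

universe u

variable {H : Type u} [NormedAddCommGroup H] [InnerProductSpace ℂ H] [CompleteSpace H]
variable {M : VonNeumannAlgebra H} {s t : Alg M} {n : ℕ}

/-- The value of a bilinear map. -/
noncomputable def val (K : Bil (Alg M) (Alg M)) (w u : Alg M) : Alg M := K w u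

/-- The mean as a plain function. -/
noncomputable def mu (o : IsO2 s t) (K : Bil (Alg M) (Alg M)) : Alg M := o.mean M K

/-- `(w, u) ↦ ψ (w u)`. -/
noncomputable def prodBil (ψ : Alg M →L[ℂ] Alg M) : Bil (Alg M) (Alg M) :=
  (ContinuousLinearMap.compL ℂ (Alg M) (Alg M) (Alg M) ψ).comp (ContinuousLinearMap.mul ℂ (Alg M))

theorem val_prodBil (ψ : Alg M →L[ℂ] Alg M) (w u : Alg M) : val (prodBil ψ) w u = ψ (w * u) := rfl

theorem mu_prodBil (o : IsO2 s t) (ψ : Alg M →L[ℂ] Alg M) : mu o (prodBil ψ) = ψ 1 :=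
  o.mean_prod ψ fun _ _ => rfl

/-- `(w, u) ↦ w u c`. -/
noncomputable def constR (c : Alg M) : Bil (Alg M) (Alg M) := prodBil (rm c)

theorem val_constR (c w u : Alg M) : val (constR c) w u = w * u * c := rfl

theorem mu_constR (o : IsO2 s t) (c : Alg M) : mu o (constR c) = c :=
  (mu_prodBil o (rm c)).trans (one_mul c)

/-- `(w, u) ↦ K (w, u) c`. -/
noncomputable def mulR (K : Bil (Alg M) (Alg M)) (c : Alg M) : Bil (Alg M) (Alg M) :=
  (ContinuousLinearMap.compL ℂ (Alg M) (Alg M) (Alg M) (rm c)).comp K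

theorem val_mulR (K : Bil (Alg M) (Alg M)) (c w u : Alg M) : val (mulR K c) w u = val K w u * c :=
  rfl

theorem mu_mulR (o : IsO2 s t) (K : Bil (Alg M) (Alg M)) (c : Alg M) :
    mu o (mulR K c) = mu o K * c :=
  o.mean_mul_right c fun _ _ _ _ => rfl

/-- `(w, u) ↦ K (w, u a)`. -/
noncomputable def preR (K : Bil (Alg M) (Alg M)) (a : Alg M) : Bil (Alg M) (Alg M) :=
  pre K (ContinuousLinearMap.id ℂ (Alg M)) (rm a)

theorem val_preR (K : Bil (Alg M) (Alg M)) (a w u : Alg M) :
    val (preR K a) w u = val K w (u * a) := rfl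

/-- `(w, u) ↦ K (a w, u)`. -/
noncomputable def preL (K : Bil (Alg M) (Alg M)) (a : Alg M) : Bil (Alg M) (Alg M) :=
  pre K (lm a) (ContinuousLinearMap.id ℂ (Alg M))

theorem val_preL (K : Bil (Alg M) (Alg M)) (a w u : Alg M) :
    val (preL K a) w u = val K (a * w) u := rfl

theorem mu_preR (o : IsO2 s t) {a : Alg M} (ha : a ∈ core s t) (K : Bil (Alg M) (Alg M)) :
    mu o (preR K a) = mu o (preL K a) :=
  (o.mean_comm ha (K := K) (fun _ _ => rfl) (fun _ _ => rfl)).symm

theorem mu_congr (o : IsO2 s t) (K L : Bil (Alg M) (Alg M))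
    (h : ∀ w ∈ core s t, ∀ u ∈ core s t, val K w u = val L w u) : mu o K = mu o L :=
  o.mean_congr h

theorem mu_eq_zero (o : IsO2 s t) (K : Bil (Alg M) (Alg M))
    (h : ∀ w ∈ core s t, ∀ u ∈ core s t, val K w u = 0) : mu o K = 0 :=
  (o.mean_congr (L := 0) h).trans (map_zero (o.mean M))

theorem mu_left_mul (o : IsO2 s t) (c : Alg M) (K L : Bil (Alg M) (Alg M))
    (h : ∀ w ∈ core s t, ∀ u ∈ core s t, val L w u = c * val K w u) :
    mu o L = c * mu o K :=
  o.mean_mul_left c h

/-- A linear relation between bilinear maps on the algebra of the pair passes to the means. -/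
theorem mu_comb (o : IsO2 s t) {m : ℕ} (c : Fin m → ℂ) (K : Fin m → Bil (Alg M) (Alg M))
    (h : ∀ w ∈ core s t, ∀ u ∈ core s t, ∑ j, c j • val (K j) w u = 0) :
    ∑ j, c j • mu o (K j) = 0 := by
  simp only [mu, ← map_smul, ← map_sum]
  rw [← map_zero (o.mean M)]
  refine o.mean_congr fun w hw u hu => ?_
  simpa [val, _root_.sum_apply] using h w hw u hu

/-- The combination used by the averaging steps. -/
theorem mu_relation (o : IsO2 s t) (A B D : Bil (Alg M) (Alg M)) (m : ℕ) (a b c : ℂ) (d : ℕ → ℂ)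
    (K : ℕ → Bil (Alg M) (Alg M))
    (h : ∀ w ∈ core s t, ∀ u ∈ core s t,
      a • val A w u + b • val B w u + (∑ j ∈ Finset.range m, d j • val (K j) w u) +
        c • val D w u = 0) :
    a • mu o A + b • mu o B + (∑ j ∈ Finset.range m, d j • mu o (K j)) + c • mu o D = 0 := by
  simp only [mu, ← map_smul, ← map_sum, ← map_add]
  rw [← map_zero (o.mean M)]
  refine o.mean_congr fun w hw u hu => ?_
  simpa [val, _root_.sum_apply] using h w hw u hu

/-- The two arguments to be averaged, curried out of a cochain. -/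
noncomputable def curry2 (h : Cochain M (n + 1 + 1)) (i : Fin (n + 1)) :
    Alg M →L[ℂ] Alg M →L[ℂ] Cochain M n :=
  ((ContinuousMultilinearMap.curryMidEquiv ℂ (fun _ : Fin (n + 1) => Alg M) (Alg M) i)
      |>.toContinuousLinearEquiv.toContinuousLinearMap).comp (h.curryMid i.castSucc)

/-- Bilinear maps, as a multilinear function of the remaining arguments. -/
noncomputable def bilC (B : Alg M →L[ℂ] Alg M →L[ℂ] Cochain M n) :
    ContinuousMultilinearMap ℂ (fun _ : Fin n => Alg M) (Bil (Alg M) (Alg M)) :=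
  ((ContinuousLinearMap.flipMultilinearEquiv ℂ (fun _ : Fin n => Alg M) (Alg M) (Alg M)
      |>.toContinuousLinearMap).comp B).flipMultilinear

/-- The bilinear map to be averaged, at a sequence. -/
noncomputable def bilAt (h : Cochain M (n + 1 + 1)) (i : Fin (n + 1)) (x : ℕ → Alg M) :
    Bil (Alg M) (Alg M) := bilC (curry2 h i) (res n x)

theorem val_bilAt (h : Cochain M (n + 1 + 1)) (i : Fin (n + 1)) (x : ℕ → Alg M) (w u : Alg M) :
    val (bilAt h i x) w u = h (res (n + 1 + 1) (ins i w (ins i u x))) := by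
  change (h.curryMid i.castSucc w).curryMid i u (res n x) = _
  rw [curryMid_res, curryMid_res]
  rfl

/-- The mean as a bounded map. -/
noncomputable def meanL (o : IsO2 s t) : Bil (Alg M) (Alg M) →L[ℂ] Alg M :=
  LinearMap.mkContinuous (E := Bil (Alg M) (Alg M)) (F := Alg M) (o.mean M) 1 fun K =>
    le_of_le_of_eq (o.norm_mean_le K) (one_mul ‖K‖).symm

/-- The averaged cochain. -/
noncomputable def avgC (o : IsO2 s t) (h : Cochain M (n + 1 + 1)) (i : Fin (n + 1)) :
    Cochain M n :=
  (meanL o).compContinuousMultilinearMap (bilC (curry2 h i))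

theorem avgC_res (o : IsO2 s t) (h : Cochain M (n + 1 + 1)) (i : Fin (n + 1)) (x : ℕ → Alg M) :
    avgC o h i (res n x) = mu o (bilAt h i x) := rfl

attribute [irreducible] val mu prodBil constR mulR preR preL bilAt avgC curry2

end Vale.Agent.P082.Every.B
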