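import Mathlib

/-!
# P082 (B): finite diagonals of a pair of isometries with complementary ranges
-/

namespace Vale.Agent.P082.Every.B

universe u v

variable {R : Type u} [CStarAlgebra R]

/-- Two isometries with complementary ranges. -/
structure IsO2 (s t : R) : Prop where
  ss : star s * s = 1
  tt : star t * t = 1
  st : star s * t = 0
  ts : star t * s = 0
  sum : s * star s + t * star t = 1

/-- Orthogonality of the ranges follows from the other relations. -/
theorem isO2_of {s t : R} (hs : star s * s = 1) (ht : star t * t = 1)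
    (hsum : s * star s + t * star t = 1) : IsO2 s t := by
  have h1 : t * (star t * s) = 0 := by
    have h := congrArg (· * s) hsum
    simp only [add_mul, mul_assoc, hs, mul_one, one_mul] at h
    simpa using h
  have h2 : star t * s = 0 := by
    rw [← one_mul (star t * s), ← ht, mul_assoc, h1, mul_zero]
  exact ⟨hs, ht, by simpa using congrArg star h2, h2, hsum⟩

variable {s t : R}

namespace IsO2

variable (o : IsO2 s t)
include o

theorem ss_mul (y : R) : star s * (s * y) = y := by rw [← mul_assoc, o.ss, one_mul]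
theorem tt_mul (y : R) : star t * (t * y) = y := by rw [← mul_assoc, o.tt, one_mul]
theorem st_mul (y : R) : star s * (t * y) = 0 := by rw [← mul_assoc, o.st, zero_mul]
theorem ts_mul (y : R) : star t * (s * y) = 0 := by rw [← mul_assoc, o.ts, zero_mul]

theorem pow_left (j : ℕ) : star s ^ j * s ^ j = 1 := by
  induction j with
  | zero => simp
  | succ j ih =>
    rw [pow_succ (star s), pow_succ' s, mul_assoc, ← mul_assoc (star s) s, o.ss, one_mul, ih]

/-- `w ↦ s w s* + t w t*`. -/
noncomputable def dup : R →⋆ₐ[ℂ] R where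
  toFun w := s * w * star s + t * w * star t
  map_one' := by simpa using o.sum
  map_zero' := by simp
  map_add' a b := by simp [mul_add, add_mul]; abel
  map_mul' a b := by
    simp [mul_add, add_mul, mul_assoc, o.ss_mul, o.tt_mul, o.st_mul, o.ts_mul]
  commutes' c := by
    simp [Algebra.algebraMap_eq_smul_one, ← smul_add, o.sum]
  map_star' a := by simp [mul_assoc]

theorem dup_apply (w : R) : dup o w = s * w * star s + t * w * star t := rfl

/-- The four Pauli unitaries of the pair. -/
def pauli (_o : IsO2 s t) : Fin 4 → R :=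
  ![1, s * star s - t * star t, s * star t + t * star s, t * star s - s * star t]

theorem star_pauli_mul (c : Fin 4) : star (o.pauli c) * o.pauli c = 1 := by
  fin_cases c <;>
    simp [pauli, mul_add, add_mul, mul_sub, sub_mul, mul_assoc, o.ss_mul, o.tt_mul, o.st_mul,
      o.ts_mul, o.sum, add_comm (t * star t)]

theorem norm_pauli_le (c : Fin 4) : ‖o.pauli c‖ ≤ 1 := by
  have h : ‖o.pauli c‖ * ‖o.pauli c‖ ≤ 1 := by
    rw [← CStarRing.norm_star_mul_self, o.star_pauli_mul]
    rcases subsingleton_or_nontrivial R with h | h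
    · simp [Subsingleton.elim (1 : R) 0]
    · simp
  nlinarith [norm_nonneg (o.pauli c)]

theorem norm_star_pauli_le (c : Fin 4) : ‖star (o.pauli c)‖ ≤ 1 := by
  rw [norm_star]; exact o.norm_pauli_le c

end IsO2

/-- The unital algebra generated by the pair and the adjoints. -/
def core (s t : R) : Subalgebra ℂ R := Algebra.adjoin ℂ {s, star s, t, star t}

theorem s_mem : s ∈ core s t := Algebra.subset_adjoin (by simp)
theorem star_s_mem : star s ∈ core s t := Algebra.subset_adjoin (by simp)
theorem t_mem : t ∈ core s t := Algebra.subset_adjoin (by simp)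
theorem star_t_mem : star t ∈ core s t := Algebra.subset_adjoin (by simp)

theorem IsO2.dup_mem (o : IsO2 s t) {w : R} (hw : w ∈ core s t) : dup o w ∈ core s t :=
  add_mem (mul_mem (mul_mem s_mem hw) star_s_mem) (mul_mem (mul_mem t_mem hw) star_t_mem)

theorem IsO2.pauli_mem (o : IsO2 s t) (c : Fin 4) : o.pauli c ∈ core s t := by
  have hss := mul_mem (s_mem (s := s) (t := t)) star_s_mem
  have htt := mul_mem (t_mem (s := s) (t := t)) star_t_mem
  have hst := mul_mem (s_mem (s := s) (t := t)) star_t_mem
  have hts := mul_mem (t_mem (s := s) (t := t)) star_s_mem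
  fin_cases c
  · exact one_mem _
  · exact sub_mem hss htt
  · exact add_mem hst hts
  · exact sub_mem hts hst

theorem IsO2.star_pauli_mem (o : IsO2 s t) (c : Fin 4) : star (o.pauli c) ∈ core s t := by
  have hss := mul_mem (s_mem (s := s) (t := t)) star_s_mem
  have htt := mul_mem (t_mem (s := s) (t := t)) star_t_mem
  have hst := mul_mem (s_mem (s := s) (t := t)) star_t_mem
  have hts := mul_mem (t_mem (s := s) (t := t)) star_s_mem
  fin_cases c <;> simp [IsO2.pauli]
  · exact sub_mem hss htt
  · exact add_mem hts hst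
  · exact sub_mem hst hts

/-! ### The averages -/

variable {E : Type v} [NormedAddCommGroup E] [NormedSpace ℂ E]

/-- Bounded bilinear maps. -/
abbrev Bil (R : Type u) (E : Type v) [CStarAlgebra R] [NormedAddCommGroup E] [NormedSpace ℂ E] :=
  R →L[ℂ] R →L[ℂ] E

/-- Precompose both arguments. -/
noncomputable def pre (K : Bil R E) (A B : R →L[ℂ] R) : Bil R E := K.bilinearComp A B

@[simp] theorem pre_apply (K : Bil R E) (A B : R →L[ℂ] R) (w u : R) :
    pre K A B w u = K (A w) (B u) := rfl

theorem norm_pre_le (K : Bil R E) {A B : R →L[ℂ] R} (hA : ‖A‖ ≤ 1) (hB : ‖B‖ ≤ 1) :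
    ‖pre K A B‖ ≤ ‖K‖ := by
  refine ContinuousLinearMap.opNorm_le_bound₂ _ (ContinuousLinearMap.opNorm_nonneg K) fun w u => ?_
  rw [pre_apply]
  refine (K.le_opNorm₂ _ _).trans ?_
  gcongr
  · exact (A.le_opNorm w).trans (mul_le_of_le_one_left (norm_nonneg _) hA)
  · exact (B.le_opNorm u).trans (mul_le_of_le_one_left (norm_nonneg _) hB)

/-- Multiplication on the left. -/
noncomputable abbrev lm (a : R) : R →L[ℂ] R := ContinuousLinearMap.mul ℂ R a

/-- Multiplication on the right. -/
noncomputable abbrev rm (a : R) : R →L[ℂ] R := (ContinuousLinearMap.mul ℂ R).flip a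

theorem rm_apply (a x : R) : rm a x = x * a := rfl

theorem lm_apply (a x : R) : lm a x = a * x := rfl

theorem norm_lm_le (a : R) : ‖lm a‖ ≤ ‖a‖ :=
  ContinuousLinearMap.opNorm_le_bound _ (norm_nonneg _) fun x => norm_mul_le a x

theorem norm_rm_le (a : R) : ‖rm a‖ ≤ ‖a‖ :=
  ContinuousLinearMap.opNorm_le_bound _ (norm_nonneg _) fun x =>
    (norm_mul_le x a).trans_eq (mul_comm _ _)

namespace IsO2

variable (o : IsO2 s t)
include o

/-- The first argument of the `c`-th term. -/
noncomputable def argL (c : Fin 4) : R →L[ℂ] R :=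
  LinearMap.mkContinuous
    ((LinearMap.mulRight ℂ (star (o.pauli c))).comp (dup o).toAlgHom.toLinearMap) 1 fun w => by
      show ‖dup o w * star (o.pauli c)‖ ≤ 1 * ‖w‖
      refine (norm_mul_le _ _).trans ?_
      rw [mul_comm 1 ‖w‖]
      gcongr
      · exact NonUnitalStarAlgHom.norm_apply_le (dup o) w
      · exact o.norm_star_pauli_le c

/-- The second argument of the `c`-th term. -/
noncomputable def argR (c : Fin 4) : R →L[ℂ] R :=
  LinearMap.mkContinuous
    ((LinearMap.mulLeft ℂ (o.pauli c)).comp (dup o).toAlgHom.toLinearMap) 1 fun w => by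
      show ‖o.pauli c * dup o w‖ ≤ 1 * ‖w‖
      refine (norm_mul_le _ _).trans ?_
      gcongr
      · exact o.norm_pauli_le c
      · exact NonUnitalStarAlgHom.norm_apply_le (dup o) w

theorem argL_apply (c : Fin 4) (w : R) : o.argL c w = dup o w * star (o.pauli c) := rfl

theorem argR_apply (c : Fin 4) (w : R) : o.argR c w = o.pauli c * dup o w := rfl

/-- The average over the four unitaries. -/
noncomputable def gamma (K : Bil R E) : Bil R E :=
  (4 : ℂ)⁻¹ • ∑ c, pre K (o.argL c) (o.argR c)

theorem gamma_apply (K : Bil R E) (w u : R) :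
    o.gamma K w u = (4 : ℂ)⁻¹ • ∑ c, K (o.argL c w) (o.argR c u) := by
  simp [gamma]

theorem gamma_eq (K : Bil R E) (w u : R) : o.gamma K w u = (2 : ℂ)⁻¹ •
    (K (s * w * star s) (s * u * star s) + K (s * w * star t) (t * u * star s) +
      K (t * w * star s) (s * u * star t) + K (t * w * star t) (t * u * star t)) := by
  rw [gamma_apply, Fin.sum_univ_four]
  simp [argL_apply, argR_apply, pauli, dup_apply, mul_add, add_mul, mul_sub, sub_mul, mul_assoc,
    o.ss_mul, o.tt_mul, o.st_mul, o.ts_mul]
  module

theorem norm_gamma_le (K : Bil R E) : ‖o.gamma K‖ ≤ ‖K‖ := by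
  refine ContinuousLinearMap.opNorm_le_bound₂ _ (ContinuousLinearMap.opNorm_nonneg K) fun w u => ?_
  rw [gamma_apply, norm_smul]
  have h : ∀ c ∈ (Finset.univ : Finset (Fin 4)),
      ‖K (o.argL c w) (o.argR c u)‖ ≤ ‖K‖ * ‖w‖ * ‖u‖ := fun c _ => by
    refine (K.le_opNorm₂ _ _).trans ?_
    gcongr
    · exact ((o.argL c).le_opNorm w).trans (mul_le_of_le_one_left (norm_nonneg _)
        (LinearMap.mkContinuous_norm_le _ zero_le_one _))
    · exact ((o.argR c).le_opNorm u).trans (mul_le_of_le_one_left (norm_nonneg _)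
        (LinearMap.mkContinuous_norm_le _ zero_le_one _))
  refine (mul_le_mul_of_nonneg_left (norm_sum_le_of_le _ h) (norm_nonneg _)).trans (le_of_eq ?_)
  simp

/-- The diagonal of level `N`. -/
noncomputable def diag : ℕ → Bil R E → E
  | 0, K => K 1 1
  | N + 1, K => diag N (o.gamma K)

theorem diag_zero (K : Bil R E) : o.diag 0 K = K 1 1 := rfl

theorem diag_succ (N : ℕ) (K : Bil R E) : o.diag (N + 1) K = o.diag N (o.gamma K) := rfl

theorem diag_add (N : ℕ) : ∀ K L : Bil R E, o.diag N (K + L) = o.diag N K + o.diag N L := by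
  induction N with
  | zero => intro K L; simp [diag_zero]
  | succ N ih =>
    intro K L
    rw [diag_succ, diag_succ, diag_succ, ← ih]
    congr 1
    ext w u
    simp [gamma_apply, Finset.sum_add_distrib]

theorem diag_smul (N : ℕ) (k : ℂ) : ∀ K : Bil R E, o.diag N (k • K) = k • o.diag N K := by
  induction N with
  | zero => intro K; simp [diag_zero]
  | succ N ih =>
    intro K
    rw [diag_succ, diag_succ, ← ih]
    congr 1
    ext w u
    simp [gamma_apply, ← Finset.smul_sum, smul_comm k]

theorem norm_diag_le (N : ℕ) : ∀ K : Bil R E, ‖o.diag N K‖ ≤ ‖K‖ := by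
  induction N with
  | zero =>
    intro K
    rw [diag_zero]
    refine (K.le_opNorm₂ 1 1).trans ?_
    rcases subsingleton_or_nontrivial R with h | h
    · simp [Subsingleton.elim (1 : R) 0]
    · simp
  | succ N ih => intro K; exact (ih _).trans (o.norm_gamma_le K)

theorem diag_congr (N : ℕ) : ∀ K L : Bil R E,
    (∀ w ∈ core s t, ∀ u ∈ core s t, K w u = L w u) → o.diag N K = o.diag N L := by
  induction N with
  | zero => intro K L h; exact h 1 (one_mem _) 1 (one_mem _)
  | succ N ih =>
    intro K L h
    refine ih _ _ fun w hw u hu => ?_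
    rw [gamma_apply, gamma_apply]
    congr 1
    exact Finset.sum_congr rfl fun c _ => h _ (mul_mem (o.dup_mem hw) (o.star_pauli_mem c))
      _ (mul_mem (o.pauli_mem c) (o.dup_mem hu))

theorem diag_comp {F : Type*} [NormedAddCommGroup F] [NormedSpace ℂ F] (T : E →L[ℂ] F) (N : ℕ) :
    ∀ (K : Bil R E) (L : Bil R F), (∀ w u, L w u = T (K w u)) → o.diag N L = T (o.diag N K) := by
  induction N with
  | zero => intro K L h; exact h 1 1
  | succ N ih =>
    intro K L h
    refine ih _ _ fun w u => ?_
    simp [gamma_apply, h, map_sum, map_smul]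

theorem diag_prod (N : ℕ) : ∀ (K : Bil R E) (ψ : R →L[ℂ] E),
    (∀ w u, K w u = ψ (w * u)) → o.diag N K = ψ 1 := by
  induction N with
  | zero => intro K ψ h; rw [diag_zero, h, one_mul]
  | succ N ih =>
    intro K ψ h
    let D : R →L[ℂ] R := LinearMap.mkContinuous (dup o).toAlgHom.toLinearMap 1 fun w => by
      rw [one_mul]; exact NonUnitalStarAlgHom.norm_apply_le (dup o) w
    rw [diag_succ, ih _ (ψ.comp D) fun w u => ?_]
    · exact congrArg ψ (map_one (dup o))
    have hc : ∀ c, o.argL c w * o.argR c u = dup o (w * u) := fun c => by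
      rw [argL_apply, argR_apply, map_mul, mul_assoc, ← mul_assoc (star _), o.star_pauli_mul,
        one_mul]
    simp only [gamma_apply, h, hc, Fin.sum_univ_four]
    show _ = ψ (dup o (w * u))
    module

/-- `a` can be moved across the diagonal of level `N`. -/
def Comm (E : Type v) [NormedAddCommGroup E] [NormedSpace ℂ E] (N : ℕ) (a : R) : Prop :=
  ∀ K : Bil R E, o.diag N (pre K (lm a) (ContinuousLinearMap.id ℂ R)) =
    o.diag N (pre K (ContinuousLinearMap.id ℂ R) (rm a))

/-- Level one matrix units pass through every higher level. -/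
theorem comm_unit (N : ℕ) {a : R} (h : a = s * star s ∨ a = s * star t + t * star s) :
    o.Comm E (N + 1) a := by
  intro K
  rw [diag_succ, diag_succ]
  congr 1
  ext w u
  rw [gamma_eq, gamma_eq]
  rcases h with rfl | rfl <;>
    (simp [mul_assoc, o.ss_mul, o.tt_mul, o.st_mul, o.ts_mul]; try abel)

/-- Shifting by `s` raises the level by one. -/
theorem comm_shift {N : ℕ} {a : R} (h : o.Comm E N a) : o.Comm E (N + 1) (s * a * star s) := by
  intro K
  rw [diag_succ, diag_succ]
  let L : Bil R E := (2 : ℂ)⁻¹ •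
    (pre K ((lm s).comp (rm (star s))) ((lm s).comp (rm (star s))) +
      pre K ((lm s).comp (rm (star t))) ((lm t).comp (rm (star s))))
  have e1 : o.gamma (pre K (lm (s * a * star s)) (ContinuousLinearMap.id ℂ R)) =
      pre L (lm a) (ContinuousLinearMap.id ℂ R) := by
    ext w u
    rw [gamma_eq]
    simp [L, mul_assoc, o.ss_mul, o.st_mul]
  have e2 : o.gamma (pre K (ContinuousLinearMap.id ℂ R) (rm (s * a * star s))) =
      pre L (ContinuousLinearMap.id ℂ R) (rm a) := by
    ext w u
    rw [gamma_eq]
    simp [L, mul_assoc, o.ss_mul, o.ts_mul]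
  rw [e1, e2]
  exact h L

theorem comm_shift_pow {N : ℕ} (j : ℕ) {a : R}
    (h : a = s * star s ∨ a = s * star t + t * star s) (hN : j < N) :
    o.Comm E N (s ^ j * a * star s ^ j) := by
  induction j generalizing N with
  | zero =>
    obtain ⟨M, rfl⟩ := Nat.exists_eq_succ_of_ne_zero (show N ≠ 0 by omega)
    simpa using o.comm_unit M h
  | succ j ih =>
    obtain ⟨M, rfl⟩ := Nat.exists_eq_succ_of_ne_zero (show N ≠ 0 by omega)
    rw [show s ^ (j + 1) * a * star s ^ (j + 1) = s * (s ^ j * a * star s ^ j) * star s by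
      rw [pow_succ' s, pow_succ (star s)]; simp only [mul_assoc]]
    exact o.comm_shift (ih (by omega))

end IsO2

end Vale.Agent.P082.Every.B
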