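import Vale.Agent.P082.Every.B.Seq

/-!
# P082 (B): cochains vanishing on an algebra in the first slots are modular over it
-/

namespace Vale.Agent.P082.Every.B

open Central (res merge hochDiff_res)
open Finset

universe u

variable {H : Type u} [NormedAddCommGroup H] [InnerProductSpace ℂ H] [CompleteSpace H]
variable {M : VonNeumannAlgebra H}

/-- `g` vanishes when one of its first `i` arguments lies in `A`. -/
def VanB {N : ℕ} (g : Cochain M N) (A : Set (Alg M)) (i : ℕ) : Prop :=
  ∀ s : ℕ → Alg M, ∀ j, j < i → j < N → s j ∈ A → g (res N s) = 0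

/-- `g` is modular over `A` in its first `i` slots. -/
structure Modular {N : ℕ} (g : Cochain M N) (A : Set (Alg M)) (i : ℕ) : Prop where
  left : 0 < i → ∀ a ∈ A, ∀ s : ℕ → Alg M,
    a * g (res N s) = g (res N (Function.update s 0 (a * s 0)))
  mid : ∀ q, q + 1 < i → ∀ a ∈ A, ∀ s : ℕ → Alg M,
    g (res N (Function.update s q (s q * a))) =
      g (res N (Function.update s (q + 1) (a * s (q + 1))))

variable {N i : ℕ} {g : Cochain M N} {A : Set (Alg M)}

/-- The differential when the first argument lies in `A`. -/
theorem hochDiff_head (hg : VanB g A i) (hi : 0 < i) (hN : i ≤ N) {s : ℕ → Alg M}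
    (hs : s 0 ∈ A) :
    hochDiff g (res (N + 1) s) =
      s 0 * g (res N fun m => s (m + 1)) - g (res N (merge 0 s)) := by
  have h1 : g (res N s) = 0 := hg s 0 hi (by omega) hs
  rw [hochDiff_res, sum_eq_single 0, h1]
  · simp [sub_eq_add_neg]
  · intro j _ hj
    rw [hg (merge j s) 0 hi (by omega) (by simpa [merge, Nat.pos_of_ne_zero hj] using hs),
      smul_zero]
  · intro h
    exact absurd (mem_range.2 (by omega)) h

/-- The differential when a later one of the first `i` arguments lies in `A`. -/
theorem hochDiff_at (hg : VanB g A i) (q : ℕ) (hq : q + 1 < i) (hN : i ≤ N) {s : ℕ → Alg M}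
    (hs : s (q + 1) ∈ A) :
    hochDiff g (res (N + 1) s) =
      (-1 : ℂ) ^ (q + 1) • (g (res N (merge q s)) - g (res N (merge (q + 1) s))) := by
  have h1 : g (res N fun m => s (m + 1)) = 0 :=
    hg (fun m => s (m + 1)) q (by omega) (by omega) hs
  have h2 : g (res N s) = 0 := hg s (q + 1) hq (by omega) hs
  rw [hochDiff_res, h1, h2, sum_eq_add q (q + 1) (by omega)]
  · rw [pow_succ (-1 : ℂ) (q + 1), smul_sub, mul_neg_one, neg_smul]
    simp [sub_eq_add_neg]
  · intro c _ hc
    rcases Nat.lt_or_ge c q with h | h
    · rw [hg (merge c s) q (by omega) (by omega)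
        (by simpa [merge, show ¬ q < c by omega, show q ≠ c by omega] using hs), smul_zero]
    · have : q + 1 < c := by
        rcases Nat.eq_or_lt_of_le h with h | h
        · exact absurd h.symm hc.1
        · omega
      rw [hg (merge c s) (q + 1) hq (by omega) (by simpa [merge, this] using hs), smul_zero]
  · intro h
    exact absurd (mem_range.2 (by omega)) h
  · intro h
    exact absurd (mem_range.2 (by omega)) h

theorem res_tail_ins (a : Alg M) (s : ℕ → Alg M) :
    res N (fun m => ins 0 a s (m + 1)) = res N s := by
  rw [tail_ins_zero]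

/-- A cocycle vanishing on `A` in its first `i` slots is modular over `A` there. -/
theorem modular_of_cocycle {f : Cochain M N} (hf : ∀ a, hochDiff f a = 0) (hv : VanB f A i)
    (hi : i ≤ N) : Modular f A i where
  left h a ha s := by
    have e := hochDiff_head hv h hi (s := ins 0 a s) (by rw [ins_self]; exact ha)
    rw [hf, res_tail_ins, ins_self, merge_ins_right] at e
    exact sub_eq_zero.1 e.symm
  mid q hq a ha s := by
    have e := hochDiff_at hv q hq hi (s := ins (q + 1) a s) (by rw [ins_self]; exact ha)
    rw [hf, merge_ins_left, merge_ins_right] at e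
    refine sub_eq_zero.1 ((smul_eq_zero.1 e.symm).resolve_left ?_)
    exact pow_ne_zero _ (by norm_num)

/-- A cocycle vanishing on `A` in all slots is modular on the right. -/
theorem right_of_cocycle {n : ℕ} {f : Cochain M (n + 1)} (hf : ∀ a, hochDiff f a = 0)
    (hv : VanB f A (n + 1)) {a : Alg M} (ha : a ∈ A) (s : ℕ → Alg M) :
    f (res (n + 1) s) * a = f (res (n + 1) (Function.update s n (s n * a))) := by
  have e := hf (res (n + 1 + 1) (ins (n + 1) a s))
  have h1 : f (res (n + 1) fun m => ins (n + 1) a s (m + 1)) = 0 :=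
    hv _ n (by omega) (by omega) (by simpa [ins] using ha)
  rw [hochDiff_res, h1, sum_eq_single n, merge_ins_left, ins_self,
    res_congr (N := n + 1) (s := ins (n + 1) a s) (s' := s) (fun m hm => by simp [ins, hm])] at e
  · rw [pow_succ (-1 : ℂ) (n + 1), mul_neg_one, neg_smul, mul_zero, zero_add, ← sub_eq_add_neg,
      ← smul_sub, smul_eq_zero] at e
    exact (sub_eq_zero.1 (e.resolve_left (pow_ne_zero _ (by norm_num)))).symm
  · intro c hc hne
    have hcn : c < n := by have := mem_range.1 hc; omega
    rw [hv _ n (by omega) (by omega)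
      (by simpa [merge, ins, show ¬ n < c by omega, show n ≠ c by omega] using ha), smul_zero]
  · intro h
    exact absurd (mem_range.2 (Nat.lt_succ_self n)) h

/-- The differential of a modular cochain vanishes on `A` in the first slots. -/
theorem vanB_hochDiff (hg : VanB g A i) (hm : Modular g A i) (hN : i ≤ N) {s : ℕ → Alg M} {p : ℕ}
    (hp : p < i) (hs : s p ∈ A) : hochDiff g (res (N + 1) s) = 0 := by
  obtain _ | q := p
  · rw [hochDiff_head hg hp hN hs, sub_eq_zero, ← ins_drop 0 s, res_tail_ins, ins_self,
      merge_ins_right]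
    exact hm.left hp (s 0) hs _
  · rw [hochDiff_at hg q hp hN hs, ← ins_drop (q + 1) s, merge_ins_left, merge_ins_right,
      hm.mid q hp _ hs, sub_self, smul_zero]

end Vale.Agent.P082.Every.B
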