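import Vale.Agent.P082.Every.Iface
import Vale.Agent.P082.Every.B.Diag
import Vale.Agent.P082.Every.B.Modular

/-!
# P082 (B): a normalised cocycle is completely bounded in its last variable
-/

namespace Vale.Agent.P082.Every.B

open Central (res)
open scoped InnerProductSpace
open Finset

universe u

variable {H : Type u} [NormedAddCommGroup H] [InnerProductSpace ℂ H] [CompleteSpace H]
variable {M : VonNeumannAlgebra H} {s t : Alg M}

/-- The `k`-th isometry of the countable family. -/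
noncomputable def leg (s t : Alg M) (k : ℕ) : Alg M := t ^ k * s

theorem leg_mem (k : ℕ) : leg s t k ∈ core s t := mul_mem (pow_mem t_mem k) s_mem

theorem star_leg_mem (k : ℕ) : star (leg s t k) ∈ core s t := by
  rw [leg, star_mul, star_pow]
  exact mul_mem star_s_mem (pow_mem star_t_mem k)

theorem star_leg_mul (o : IsO2 s t) (j k : ℕ) :
    star (leg s t j) * leg s t k = if j = k then 1 else 0 := by
  induction j generalizing k with
  | zero =>
    rcases k with _ | k
    · simp [leg, o.ss]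
    · simp [leg, pow_succ', mul_assoc, o.st_mul]
  | succ j ih =>
    rcases k with _ | k
    · simp [leg, pow_succ', mul_assoc, o.ts]
    · have := ih k
      simp only [leg, star_mul, mul_assoc, Nat.succ_inj] at this ⊢
      rw [pow_succ', star_mul, pow_succ' t k]
      simp only [mul_assoc, o.tt_mul]
      exact this

theorem ev_mul (a b : Alg M) (v : H) : ev v (a * b) = ev (ev v b) a := rfl

theorem inner_ev_star (a : Alg M) (v w : H) : ⟪v, ev w (star a)⟫_ℂ = ⟪ev v a, w⟫_ℂ :=
  ContinuousLinearMap.adjoint_inner_right (a : H →L[ℂ] H) v w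

theorem ev_sum {κ : Type*} (S : Finset κ) (a : κ → Alg M) (v : H) :
    ev v (∑ k ∈ S, a k) = ∑ k ∈ S, ev v (a k) :=
  map_sum ({ toFun := fun a => ev v a, map_add' := fun _ _ => by simp [ev],
             map_zero' := by simp [ev] } : Alg M →+ H) a S

theorem sum_ev {κ : Type*} (S : Finset κ) (a : Alg M) (v : κ → H) :
    ev (∑ k ∈ S, v k) a = ∑ k ∈ S, ev (v k) a :=
  map_sum (a : H →L[ℂ] H) v S

theorem norm_sq_sum_leg (o : IsO2 s t) {K : ℕ} (η : Fin K → H) :
    ‖∑ k, ev (η k) (leg s t k)‖ ^ 2 = ∑ k, ‖η k‖ ^ 2 := by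
  have h : ⟪∑ k, ev (η k) (leg s t k), ∑ k, ev (η k) (leg s t k)⟫_ℂ = ∑ k, ⟪η k, η k⟫_ℂ := by
    simp only [sum_inner, inner_sum, ← inner_ev_star, ← ev_mul, star_leg_mul o, Fin.val_inj]
    refine sum_congr rfl fun k _ => ?_
    rw [sum_eq_single k]
    · simp [ev]
    · intro j _ hj; simp [ev, hj]
    · simp
  simp only [inner_self_eq_norm_sq_to_K] at h
  exact_mod_cast h

theorem sum_norm_sq_star_leg_le (o : IsO2 s t) {K : ℕ} (v : H) :
    ∑ k : Fin K, ‖ev v (star (leg s t k))‖ ^ 2 ≤ ‖v‖ ^ 2 := by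
  set w : Fin K → H := fun k => ev v (star (leg s t k))
  have hy := norm_sq_sum_leg o w
  have h : ⟪∑ k, ev (w k) (leg s t k), v⟫_ℂ = ((∑ k, ‖w k‖ ^ 2 : ℝ) : ℂ) := by
    rw [sum_inner, Complex.ofReal_sum]
    refine sum_congr rfl fun k _ => ?_
    rw [← inner_ev_star, inner_self_eq_norm_sq_to_K]
    simp
  have hle := norm_inner_le_norm (𝕜 := ℂ) (∑ k, ev (w k) (leg s t k)) v
  rw [h, Complex.norm_real, Real.norm_of_nonneg (Finset.sum_nonneg fun k _ => sq_nonneg _),
    ← hy] at hle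
  rw [← hy]
  nlinarith [norm_nonneg (∑ k, ev (w k) (leg s t k)), norm_nonneg v,
    sq_nonneg (‖∑ k, ev (w k) (leg s t k)‖ - ‖v‖)]

/-- `∑ r_a Z_ab r_b*`. -/
noncomputable def pack (s t : Alg M) {K L : ℕ} (Z : Fin K → Fin L → Alg M) : Alg M :=
  ∑ a : Fin K, leg s t a * ∑ b : Fin L, Z a b * star (leg s t b)

theorem norm_pack_le (o : IsO2 s t) {K L : ℕ} {Z : Fin K → Fin L → Alg M} {C : ℝ} (hC : 0 ≤ C)
    (hZ : ∀ ξ : Fin L → H, ∑ k, ‖∑ l, ev (ξ l) (Z k l)‖ ^ 2 ≤ C ^ 2 * ∑ l, ‖ξ l‖ ^ 2) :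
    ‖pack s t Z‖ ≤ C := by
  refine ContinuousLinearMap.opNorm_le_bound _ hC fun v => ?_
  show ‖ev v (pack s t Z)‖ ≤ C * ‖v‖
  refine (sq_le_sq₀ (norm_nonneg _) (by positivity)).1 ?_
  rw [pack, ev_sum]
  simp only [ev_mul, ev_sum]
  rw [norm_sq_sum_leg o, mul_pow]
  exact (hZ _).trans (mul_le_mul_of_nonneg_left (sum_norm_sq_star_leg_le o v) (sq_nonneg C))

theorem star_leg_pack_mul (o : IsO2 s t) {K L : ℕ} (Z : Fin K → Fin L → Alg M) (k : Fin K)
    (l : Fin L) : star (leg s t k) * pack s t Z * leg s t l = Z k l := by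
  simp only [pack, mul_sum, sum_mul, ← mul_assoc, star_leg_mul o, Fin.val_inj]
  rw [sum_eq_single k]
  · rw [sum_eq_single l]
    · simp [mul_assoc, star_leg_mul o]
    · intro b _ hb; simp [mul_assoc, star_leg_mul o, Fin.val_inj, hb]
    · simp
  · intro a _ ha; simp [ha.symm]
  · simp

/-- `∑_(a < K) r_a x r_a*`. -/
noncomputable def amp (s t : Alg M) (K : ℕ) (x : Alg M) : Alg M :=
  pack s t fun a b : Fin K => if a = b then x else 0

theorem norm_amp_le (o : IsO2 s t) (K : ℕ) (x : Alg M) : ‖amp s t K x‖ ≤ ‖x‖ := by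
  refine norm_pack_le o (norm_nonneg _) fun ξ => ?_
  rw [mul_sum]
  refine sum_le_sum fun k _ => ?_
  rw [sum_eq_single k, if_pos rfl, ← mul_pow]
  · exact pow_le_pow_left₀ (norm_nonneg _) ((x : H →L[ℂ] H).le_opNorm (ξ k)) 2
  · intro j _ hj; simp [ev, hj.symm]
  · simp

theorem star_leg_mul_amp (o : IsO2 s t) {K : ℕ} (x : Alg M) (k : Fin K) :
    star (leg s t k) * amp s t K x = x * star (leg s t k) := by
  simp only [amp, pack, mul_sum, ← mul_assoc, star_leg_mul o, Fin.val_inj]
  rw [sum_eq_single k]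
  · rw [sum_eq_single k]
    · simp
    · intro b _ hb; simp [hb.symm]
    · simp
  · intro a _ ha; simp [ha.symm]
  · simp

theorem norm_apply_le {n : ℕ} (f : Cochain M (n + 1)) (a : Fin (n + 1) → Alg M)
    (y : Fin n → Alg M) (h : ∀ i : Fin n, ‖a i.castSucc‖ ≤ ‖y i‖) (h1 : ‖a (Fin.last n)‖ ≤ 1) :
    ‖f a‖ ≤ ‖f‖ * ∏ i, ‖y i‖ := by
  refine (f.le_opNorm a).trans (mul_le_mul_of_nonneg_left ?_ f.opNorm_nonneg)
  rw [Fin.prod_univ_castSucc]
  have hp : ∏ i : Fin n, ‖a i.castSucc‖ ≤ ∏ i, ‖y i‖ :=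
    Finset.prod_le_prod (fun i _ => norm_nonneg _) fun i _ => h i
  exact (mul_le_mul hp h1 (norm_nonneg _) (prod_nonneg fun i _ => norm_nonneg _)).trans
    (le_of_eq (mul_one _))

/-- A normalised cocycle is completely bounded in its last variable. -/
theorem isCB_last (o : IsO2 s t) {n : ℕ} (f : Cochain M (n + 1)) (hf : ∀ a, hochDiff f a = 0)
    (hv : VanB f (core s t : Set (Alg M)) (n + 1)) (y : Fin n → Alg M) :
    IsCB M (f.curryRight y) (‖f‖ * ∏ i, ‖y i‖) := by
  intro K L Z hZ η ξ hη hξ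
  have hfm := modular_of_cocycle hf hv le_rfl
  set x : ℕ → Alg M := fun m => if h : m < n then y ⟨m, h⟩ else 0
  set Y : ℕ → Alg M := fun m => if m < n then amp s t K (x m) else pack s t Z with hY
  set F := f (res (n + 1) Y) with hF
  -- pushing a leg through the amplified arguments
  have chain : ∀ k : Fin K, ∀ i, i ≤ n → star (leg s t k) * F = f (res (n + 1)
      (Function.update (fun m => if m < i then x m else Y m) i (star (leg s t k) * Y i))) := by
    intro k i
    induction i with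
    | zero =>
      intro _
      rw [hF, hfm.left (Nat.succ_pos n) _ (star_leg_mem k)]
      simp
    | succ i ih =>
      intro hi
      rw [ih (by omega), show Y i = amp s t K (x i) by simp [hY, show i < n by omega],
        star_leg_mul_amp o]
      have e1 : Function.update (fun m => if m < i then x m else Y m) i
          (x i * star (leg s t k)) = Function.update (fun m => if m < i + 1 then x m else Y m) i
            ((fun m => if m < i + 1 then x m else Y m) i * star (leg s t k)) := by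
        funext m
        rcases eq_or_ne m i with rfl | hm
        · simp
        · simp [Function.update_of_ne hm, show (m < i) ↔ (m < i + 1) by omega]
      rw [e1, hfm.mid i (by omega) _ (star_leg_mem k)]
      simp
  have key : ∀ (k : Fin K) (l : Fin L),
      f.curryRight y (Z k l) = star (leg s t k) * F * leg s t l := by
    intro k l
    rw [chain k n le_rfl, right_of_cocycle hf hv (leg_mem l), Function.update_self,
      Function.update_idem, hY]
    simp only [lt_irrefl, if_false]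
    rw [star_leg_pack_mul o, ContinuousMultilinearMap.curryRight_apply]
    congr 1
    funext m
    induction m using Fin.lastCases with
    | last => simp [res]
    | cast m => simp [res, x, m.2, m.2.ne]
  have hpair : ∑ k, ∑ l, ⟪η k, ev (ξ l) (f.curryRight y (Z k l))⟫_ℂ =
      ⟪∑ k, ev (η k) (leg s t k), ev (∑ l, ev (ξ l) (leg s t l)) F⟫_ℂ := by
    rw [sum_inner]
    refine sum_congr rfl fun k _ => ?_
    rw [sum_ev, inner_sum]
    refine sum_congr rfl fun l _ => ?_
    rw [key, ev_mul, ev_mul, inner_ev_star]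
  have hFn : ‖F‖ ≤ ‖f‖ * ∏ i, ‖y i‖ := by
    refine norm_apply_le f _ y (fun i => ?_) ?_
    · show ‖Y (i : ℕ)‖ ≤ ‖y i‖
      simp only [hY, i.2, if_true]
      refine (norm_amp_le o K _).trans (le_of_eq ?_)
      simp [x, i.2]
    · show ‖Y n‖ ≤ 1
      simp only [hY, lt_irrefl, if_false]
      exact norm_pack_le o zero_le_one fun ξ => by simpa [Contr] using hZ ξ
  rw [hpair]
  refine (norm_inner_le_norm _ _).trans ?_
  have h1 : ‖∑ k, ev (η k) (leg s t k)‖ ≤ 1 :=
    (sq_le_one_iff₀ (norm_nonneg _)).1 ((norm_sq_sum_leg o η).trans_le hη)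
  have h2 : ‖∑ l, ev (ξ l) (leg s t l)‖ ≤ 1 :=
    (sq_le_one_iff₀ (norm_nonneg _)).1 ((norm_sq_sum_leg o ξ).trans_le hξ)
  calc ‖∑ k, ev (η k) (leg s t k)‖ * ‖ev (∑ l, ev (ξ l) (leg s t l)) F‖
      ≤ 1 * (‖F‖ * 1) := by
        refine mul_le_mul h1 ?_ (norm_nonneg _) zero_le_one
        exact ((F : H →L[ℂ] H).le_opNorm _).trans (mul_le_mul_of_nonneg_left h2 (norm_nonneg _))
    _ ≤ _ := by rw [one_mul, mul_one]; exact hFn

end Vale.Agent.P082.Every.B
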