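import Vale.Agent.P082.Every.B.Normal
import Vale.Agent.P082.Every.B.CB

/-!
# P082 (B): properly infinite algebras
-/

namespace Vale.Agent.P082.Every.B

open Central (res hochDiff_add)

universe u v

variable {H : Type u} [NormedAddCommGroup H] [InnerProductSpace ℂ H] [CompleteSpace H]
variable {M : VonNeumannAlgebra H}

/-- A cocycle that is completely bounded in its last variable is a coboundary, given (A). -/
theorem coboundary_of_isCB (Φ : (Alg M →L[ℂ] Alg M) →ₗ[ℂ] Alg M)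
    (hb : ∀ φ C, IsCB M φ C → ‖Φ φ‖ ≤ C)
    (hl : ∀ c φ C, IsCB M φ C → Φ ((ContinuousLinearMap.mul ℂ (Alg M) c).comp φ) = c * Φ φ)
    (hr : ∀ v φ C, IsCB M φ C → Φ (φ.comp (ContinuousLinearMap.mul ℂ (Alg M) v)) = Φ φ * v)
    (hfix : ∀ c, Φ (ContinuousLinearMap.mul ℂ (Alg M) c) = c) {n : ℕ} (f : Cochain M (n + 1))
    (hf : ∀ a, hochDiff f a = 0) (hcb : ∀ y, IsCB M (f.curryRight y) (‖f‖ * ∏ i, ‖y i‖)) :
    ∃ g : Cochain M n, ∀ x, f x = hochDiff g x := by
  let G : Cochain M n := MultilinearMap.mkContinuous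
    (Φ.compMultilinearMap f.curryRight.toMultilinearMap) ‖f‖ fun y => hb _ _ (hcb y)
  refine ⟨(-1 : ℂ) ^ (n + 1) • G, fun x => ?_⟩
  have hG : ∀ y, G y = Φ (f.curryRight y) := fun y => rfl
  set F := f.curryRight with hF
  have hFa : ∀ (y : Fin n → Alg M) u, F y u = f (Fin.snoc y u) := fun y u => rfl
  have key : (ContinuousLinearMap.mul ℂ (Alg M) (x 0)).comp (F (Fin.tail x)) +
      ((∑ j : Fin n, (-1 : ℂ) ^ (j.val + 1) • F (Fin.contractNth j.castSucc (· * ·) x)) +
        (-1 : ℂ) ^ (n + 1) •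
          (F (Fin.init x)).comp (ContinuousLinearMap.mul ℂ (Alg M) (x (Fin.last n)))) +
      (-1 : ℂ) ^ (n + 1 + 1) • ContinuousLinearMap.mul ℂ (Alg M) (f x) = 0 := by
    ext1 u
    have h := hf (Fin.snoc x u)
    rw [hochDiff, Fin.sum_univ_castSucc, contractNth_last_snoc, tail_snoc] at h
    simp only [contractNth_snoc, Fin.init_snoc, Fin.snoc_last, Fin.val_castSucc, Fin.val_last] at h
    rw [← Fin.castSucc_zero, Fin.snoc_castSucc] at h
    simpa [hFa] using h
  have h := congrArg Φ key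
  simp only [map_add, map_sum, map_smul, hl _ _ _ (hcb _), hr _ _ _ (hcb _), hfix, map_zero,
    ← hG] at h
  have hd : hochDiff G x + (-1 : ℂ) ^ (n + 1 + 1) • f x = 0 := by
    rw [hochDiff]
    simpa [add_assoc] using h
  rw [hochDiff_smul, eq_neg_of_add_eq_zero_left hd, smul_neg, smul_smul, ← pow_add,
    show n + 1 + (n + 1 + 1) = 2 * (n + 1) + 1 by omega, pow_succ, pow_mul]
  simp

/-- (B) Properly infinite algebras have vanishing cohomology, given (A). -/
theorem stmtB : Every.StmtB.{v} := by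
  intro hA H _ _ _ M hM n f hf
  obtain ⟨s, t, hs, ht, hsum⟩ := hM
  have o : IsO2 s t := isO2_of hs ht hsum
  obtain ⟨Φ, hb, hl, hr, hfix⟩ := hA H M
  obtain ⟨g, hg⟩ := exists_normalised o f hf (n + 1) le_rfl
  obtain ⟨g', hg'⟩ := coboundary_of_isCB Φ hb hl hr hfix (corr f g) (hochDiff_corr hf g)
    (isCB_last o (corr f g) (hochDiff_corr hf g) hg)
  refine ⟨g + g', fun a => ?_⟩
  rw [hochDiff_add, ← hg' a, corr_apply]
  abel

end Vale.Agent.P082.Every.B
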