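import Vale.Agent.P082.Avg.Tools
import Vale.Agent.P082.Every.B.Diag

/-!
# P082 (B): the invariant mean of a pair of isometries, with values in a von Neumann algebra
-/

namespace Vale.Agent.P082.Every.B

open Filter Topology
open scoped InnerProductSpace

universe u v

section Finite

variable {R : Type u} [CStarAlgebra R] {s t : R}
variable {E : Type v} [NormedAddCommGroup E] [NormedSpace ℂ E]

/-- Move the `j`-th power of the first isometry across. -/
noncomputable def shift (s : R) (j : ℕ) (K : Bil R E) : Bil R E :=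
  pre K (lm (star s ^ j)) (rm (s ^ j))

theorem shift_apply (s : R) (j : ℕ) (K : Bil R E) (w u : R) :
    shift s j K w u = K (star s ^ j * w) (u * s ^ j) := rfl

theorem bil_ext {K L : Bil R E} (h : ∀ w u, K w u = L w u) : K = L :=
  ContinuousLinearMap.ext fun w => ContinuousLinearMap.ext fun u => h w u

namespace IsO2

variable (o : IsO2 s t)
include o

theorem norm_s_le : ‖s‖ ≤ 1 := by
  have h : ‖s‖ * ‖s‖ ≤ 1 := by
    rw [← CStarRing.norm_star_mul_self, o.ss]
    rcases subsingleton_or_nontrivial R with h | h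
    · simp [Subsingleton.elim (1 : R) 0]
    · simp
  nlinarith [norm_nonneg s]

theorem norm_shift_le (j : ℕ) (K : Bil R E) : ‖shift s j K‖ ≤ ‖K‖ := by
  rcases subsingleton_or_nontrivial R with h | h
  · refine ContinuousLinearMap.opNorm_le_bound₂ _ (ContinuousLinearMap.opNorm_nonneg K)
      fun w u => ?_
    simp [Subsingleton.elim w 0]
  refine norm_pre_le K ((norm_lm_le _).trans ?_) ((norm_rm_le _).trans ?_)
  · exact (norm_pow_le _ _).trans (pow_le_one₀ (norm_nonneg _) (by rw [norm_star]; exact o.norm_s_le))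
  · exact (norm_pow_le _ _).trans (pow_le_one₀ (norm_nonneg _) o.norm_s_le)

/-- The `m`-th Cesàro mean. -/
noncomputable def ces (m : ℕ) (K : Bil R E) : E :=
  ((m : ℂ) + 1)⁻¹ • ∑ j ∈ Finset.range (m + 1), o.diag (m + 2) (shift s j K)

theorem ces_add (m : ℕ) (K L : Bil R E) : o.ces m (K + L) = o.ces m K + o.ces m L := by
  have h : ∀ j, shift s j (K + L) = shift s j K + shift s j L := fun j => by
    ext w u; simp [shift_apply]
  simp only [ces, h, o.diag_add, Finset.sum_add_distrib, smul_add]

theorem ces_smul (m : ℕ) (k : ℂ) (K : Bil R E) : o.ces m (k • K) = k • o.ces m K := by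
  have h : ∀ j, shift s j (k • K) = k • shift s j K := fun j => by ext w u; simp [shift_apply]
  simp only [ces, h, o.diag_smul, ← Finset.smul_sum, smul_comm k]

theorem norm_ces_le (m : ℕ) (K : Bil R E) : ‖o.ces m K‖ ≤ ‖K‖ := by
  rw [ces, norm_smul]
  refine (mul_le_mul_of_nonneg_left (norm_sum_le_of_le _ fun j _ =>
    (o.norm_diag_le (m + 2) (shift s j K)).trans (o.norm_shift_le j K)) (norm_nonneg _)).trans
    (le_of_eq ?_)
  rw [Finset.sum_const, Finset.card_range, nsmul_eq_mul, ← mul_assoc, norm_inv,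
    show ‖(m : ℂ) + 1‖ = ((m + 1 : ℕ) : ℝ) by exact_mod_cast Complex.norm_natCast (m + 1),
    inv_mul_cancel₀ (by positivity), one_mul]

theorem ces_congr (m : ℕ) {K L : Bil R E}
    (h : ∀ w ∈ core s t, ∀ u ∈ core s t, K w u = L w u) : o.ces m K = o.ces m L := by
  simp only [ces]
  congr 1
  refine Finset.sum_congr rfl fun j _ => o.diag_congr _ _ _ fun w hw u hu => ?_
  exact h _ (mul_mem (pow_mem star_s_mem j) hw) _ (mul_mem hu (pow_mem s_mem j))

theorem ces_comp {F : Type*} [NormedAddCommGroup F] [NormedSpace ℂ F] (T : E →L[ℂ] F) (m : ℕ)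
    {K : Bil R E} {L : Bil R F} (h : ∀ w u, L w u = T (K w u)) : o.ces m L = T (o.ces m K) := by
  simp only [ces, map_smul, map_sum]
  congr 1
  exact Finset.sum_congr rfl fun j _ => o.diag_comp T _ _ _ fun w u => h _ _

theorem ces_prod (m : ℕ) {K : Bil R E} {ψ : R →L[ℂ] E} (h : ∀ w u, K w u = ψ (w * u)) :
    o.ces m K = ψ 1 := by
  have hj : ∀ j, o.diag (m + 2) (shift s j K) = ψ 1 := fun j => by
    rw [o.diag_prod _ _ (ψ.comp ((lm (star s ^ j)).comp (rm (s ^ j))))
      (fun w u => by simp [shift_apply, h, mul_assoc])]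
    simp [o.pow_left j]
  rw [ces]
  simp only [hj]
  rw [Finset.sum_const, Finset.card_range, ← Nat.cast_smul_eq_nsmul ℂ, smul_smul, Nat.cast_succ,
    inv_mul_cancel₀ (Nat.cast_add_one_ne_zero m), one_smul]

theorem ces_comm (m : ℕ) (K : Bil R E) {a : R}
    (ha : a = s * star s ∨ a = s * star t + t * star s) :
    o.ces m (pre K (lm a) (ContinuousLinearMap.id ℂ R)) =
      o.ces m (pre K (ContinuousLinearMap.id ℂ R) (rm a)) := by
  simp only [ces]
  congr 1
  refine Finset.sum_congr rfl fun j hj => ?_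
  have hc : o.Comm E (m + 2) (s ^ j * a * star s ^ j) :=
    o.comm_shift_pow j ha (by have := Finset.mem_range.1 hj; omega)
  have e1 : shift s j (pre K (lm a) (ContinuousLinearMap.id ℂ R)) =
      pre (shift s j K) (lm (s ^ j * a * star s ^ j)) (ContinuousLinearMap.id ℂ R) := by
    ext w u
    simp only [shift_apply, pre_apply, ContinuousLinearMap.mul_apply', ContinuousLinearMap.id_apply]
    simp only [← mul_assoc, o.pow_left, one_mul]
  have e2 : shift s j (pre K (ContinuousLinearMap.id ℂ R) (rm a)) =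
      pre (shift s j K) (ContinuousLinearMap.id ℂ R) (rm (s ^ j * a * star s ^ j)) := by
    ext w u
    simp only [shift_apply, pre_apply, ContinuousLinearMap.flip_apply,
      ContinuousLinearMap.mul_apply', ContinuousLinearMap.id_apply]
    simp only [mul_assoc, o.pow_left, mul_one]
  rw [e1, e2]
  exact hc _

theorem ces_shift_sub (m : ℕ) (K : Bil R E) :
    ‖o.ces m (shift s 1 K) - o.ces m K‖ ≤ 2 * ‖K‖ / ((m : ℝ) + 1) := by
  have h : ∀ j, shift s j (shift s 1 K) = shift s (j + 1) K := fun j => by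
    ext w u
    simp only [shift_apply, pow_one]
    rw [pow_succ' (star s), pow_succ s]
    simp only [mul_assoc]
  rw [ces, ces, ← smul_sub, ← Finset.sum_sub_distrib]
  simp only [h]
  rw [Finset.sum_range_sub (fun j => o.diag (m + 2) (shift s j K)), norm_smul, norm_inv,
    show ‖(m : ℂ) + 1‖ = (m : ℝ) + 1 by exact_mod_cast Complex.norm_natCast (m + 1),
    div_eq_inv_mul]
  refine mul_le_mul_of_nonneg_left ?_ (by positivity)
  refine (norm_sub_le _ _).trans ?_
  linarith [(o.norm_diag_le (m + 2) (shift s (m + 1) K)).trans (o.norm_shift_le (m + 1) K),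
    (o.norm_diag_le (m + 2) (shift s 0 K)).trans (o.norm_shift_le 0 K)]

end IsO2

end Finite

/-! ### The limit -/

variable {H H' : Type u} [NormedAddCommGroup H] [InnerProductSpace ℂ H] [CompleteSpace H]
  [NormedAddCommGroup H'] [InnerProductSpace ℂ H'] [CompleteSpace H']
variable {M : VonNeumannAlgebra H} {N : VonNeumannAlgebra H'} {s t : Alg M}

/-- The ultrafilter of the limit. -/
noncomputable def ult : Ultrafilter ℕ := Ultrafilter.of atTop

namespace IsO2

variable (o : IsO2 s t)
include o

/-- The weak limit of the Cesàro means. -/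
noncomputable def meanFun (K : Bil (Alg M) (Alg N)) : Alg N :=
  Classical.choose (Avg.exists_wLim ult (fun m => o.ces m K) fun m => o.norm_ces_le m K)

theorem isWLim_meanFun (K : Bil (Alg M) (Alg N)) :
    Avg.IsWLim ult (fun m => o.ces m K) (o.meanFun K) :=
  (Classical.choose_spec (Avg.exists_wLim ult _ fun m => o.norm_ces_le m K)).1

theorem meanFun_eq {K : Bil (Alg M) (Alg N)} {x : Alg N}
    (h : Avg.IsWLim ult (fun m => o.ces m K) x) : o.meanFun K = x :=
  (o.isWLim_meanFun K).unique h

theorem norm_meanFun_le (K : Bil (Alg M) (Alg N)) : ‖o.meanFun K‖ ≤ ‖K‖ :=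
  (Classical.choose_spec (Avg.exists_wLim ult _ fun m => o.norm_ces_le m K)).2

variable (N) in
/-- The mean of a bounded bilinear map. -/
noncomputable def mean : Bil (Alg M) (Alg N) →ₗ[ℂ] Alg N where
  toFun := o.meanFun
  map_add' K L := o.meanFun_eq <| by
    simpa only [o.ces_add] using (o.isWLim_meanFun K).add (o.isWLim_meanFun L)
  map_smul' k K := o.meanFun_eq <| by
    simpa only [o.ces_smul, RingHom.id_apply] using (o.isWLim_meanFun K).smul k

theorem norm_mean_le (K : Bil (Alg M) (Alg N)) : ‖o.mean N K‖ ≤ ‖K‖ := o.norm_meanFun_le K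

theorem mean_congr {K L : Bil (Alg M) (Alg N)}
    (h : ∀ w ∈ core s t, ∀ u ∈ core s t, K w u = L w u) : o.mean N K = o.mean N L :=
  o.meanFun_eq (x := o.meanFun L) <| by simpa only [o.ces_congr _ h] using o.isWLim_meanFun L

theorem mean_mul_left (c : Alg N) {K L : Bil (Alg M) (Alg N)}
    (h : ∀ w ∈ core s t, ∀ u ∈ core s t, L w u = c * K w u) :
    o.mean N L = c * o.mean N K := by
  let L' : Bil (Alg M) (Alg N) :=
    (ContinuousLinearMap.compL ℂ (Alg M) (Alg N) (Alg N) (ContinuousLinearMap.mul ℂ (Alg N) c)).comp K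
  rw [o.mean_congr (L := L') (fun w hw u hu => h w hw u hu)]
  refine o.meanFun_eq ?_
  have e : (fun m => o.ces m L') = fun m => c * o.ces m K :=
    funext fun m => o.ces_comp (ContinuousLinearMap.mul ℂ (Alg N) c) m fun w u => rfl
  rw [e]
  exact (o.isWLim_meanFun K).mul_left c

theorem mean_mul_right (c : Alg N) {K L : Bil (Alg M) (Alg N)}
    (h : ∀ w ∈ core s t, ∀ u ∈ core s t, L w u = K w u * c) :
    o.mean N L = o.mean N K * c := by
  let L' : Bil (Alg M) (Alg N) := (ContinuousLinearMap.compL ℂ (Alg M) (Alg N) (Alg N)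
    ((ContinuousLinearMap.mul ℂ (Alg N)).flip c)).comp K
  rw [o.mean_congr (L := L') (fun w hw u hu => h w hw u hu)]
  refine o.meanFun_eq ?_
  have e : (fun m => o.ces m L') = fun m => o.ces m K * c :=
    funext fun m => o.ces_comp ((ContinuousLinearMap.mul ℂ (Alg N)).flip c) m fun w u => rfl
  rw [e]
  exact (o.isWLim_meanFun K).mul_right c

/-- The mean sees a function of the product at `1`. -/
theorem mean_prod {K : Bil (Alg M) (Alg N)} (ψ : Alg M →L[ℂ] Alg N)
    (h : ∀ w u, K w u = ψ (w * u)) : o.mean N K = ψ 1 :=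
  o.meanFun_eq <| by simpa only [o.ces_prod _ h] using Avg.IsWLim.const ult (ψ 1)

theorem mean_unit (K : Bil (Alg M) (Alg N)) {a : Alg M}
    (ha : a = s * star s ∨ a = s * star t + t * star s) :
    o.mean N (pre K (lm a) (ContinuousLinearMap.id ℂ (Alg M))) =
      o.mean N (pre K (ContinuousLinearMap.id ℂ (Alg M)) (rm a)) :=
  o.meanFun_eq (x := o.meanFun (pre K (ContinuousLinearMap.id ℂ (Alg M)) (rm a))) <| by
    simpa only [o.ces_comm _ K ha] using
      o.isWLim_meanFun (pre K (ContinuousLinearMap.id ℂ (Alg M)) (rm a))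

theorem mean_shift (K : Bil (Alg M) (Alg N)) : o.mean N (shift s 1 K) = o.mean N K := by
  refine o.meanFun_eq ((o.isWLim_meanFun K).congr_of_norm ?_)
  refine squeeze_zero (fun _ => norm_nonneg _)
    (fun m => (norm_sub_rev _ _).trans_le (o.ces_shift_sub m K)) ?_
  refine Tendsto.mono_left ?_ (Ultrafilter.of_le atTop)
  exact tendsto_const_nhds.div_atTop (tendsto_natCast_atTop_atTop.atTop_add tendsto_const_nhds)

variable (N) in
/-- `a` can be moved across the mean. -/
def Inv (a : Alg M) : Prop :=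
  ∀ K L : Bil (Alg M) (Alg N), (∀ w u, L w u = K (a * w) u) →
    ∀ L' : Bil (Alg M) (Alg N), (∀ w u, L' w u = K w (u * a)) → o.mean N L = o.mean N L'

theorem inv_unit {a : Alg M} (ha : a = s * star s ∨ a = s * star t + t * star s) :
    o.Inv N a := fun K L h L' h' => by
  rw [show L = pre K (lm a) (ContinuousLinearMap.id ℂ (Alg M)) from
      bil_ext fun w u => h w u,
    show L' = pre K (ContinuousLinearMap.id ℂ (Alg M)) (rm a) from
      bil_ext fun w u => h' w u]
  exact o.mean_unit K ha

theorem inv_mul {a b : Alg M} (ha : o.Inv N a) (hb : o.Inv N b) : o.Inv N (a * b) := by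
  intro K L h L' h'
  have e1 := hb (pre K (lm a) (ContinuousLinearMap.id ℂ (Alg M))) L
    (fun w u => by rw [h, pre_apply, mul_assoc]; rfl)
    (pre K (lm a) (rm b)) (fun w u => rfl)
  rw [e1]
  exact ha (pre K (ContinuousLinearMap.id ℂ (Alg M)) (rm b)) (pre K (lm a) (rm b)) (fun w u => rfl)
    L' (fun w u => by rw [h', ← mul_assoc]; rfl)

theorem inv_add {a b : Alg M} (ha : o.Inv N a) (hb : o.Inv N b) : o.Inv N (a + b) := by
  intro K L h L' h'
  have e1 : L = pre K (lm a) (ContinuousLinearMap.id ℂ (Alg M)) +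
      pre K (lm b) (ContinuousLinearMap.id ℂ (Alg M)) :=
    bil_ext fun w u => by rw [h, add_mul, map_add]; rfl
  have e2 : L' = pre K (ContinuousLinearMap.id ℂ (Alg M)) (rm a) +
      pre K (ContinuousLinearMap.id ℂ (Alg M)) (rm b) :=
    bil_ext fun w u => by rw [h', mul_add, map_add]; rfl
  rw [e1, e2, map_add, map_add,
    ha K (pre K (lm a) (ContinuousLinearMap.id ℂ (Alg M))) (fun w u => rfl)
      (pre K (ContinuousLinearMap.id ℂ (Alg M)) (rm a)) (fun w u => rfl),
    hb K (pre K (lm b) (ContinuousLinearMap.id ℂ (Alg M))) (fun w u => rfl)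
      (pre K (ContinuousLinearMap.id ℂ (Alg M)) (rm b)) (fun w u => rfl)]

theorem inv_algebraMap (c : ℂ) : o.Inv N (algebraMap ℂ (Alg M) c) := by
  intro K L h L' h'
  congr 1
  refine bil_ext fun w u => ?_
  rw [h, h', Algebra.algebraMap_eq_smul_one, smul_one_mul, mul_smul_one, map_smul, map_smul]
  rfl

theorem inv_s : o.Inv N s := by
  intro K L h L' h'
  rw [← o.mean_shift L, o.inv_unit (Or.inl rfl) (pre K (ContinuousLinearMap.id ℂ (Alg M)) (rm s))
    (shift s 1 L) (fun w u => by rw [shift_apply, h, pow_one, pow_one, ← mul_assoc]; rfl) L'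
    (fun w u => by
      rw [h', pre_apply]
      show K w (u * s) = K w (u * (s * star s) * s)
      rw [mul_assoc, mul_assoc s, o.ss, mul_one])]

theorem inv_star_s : o.Inv N (star s) := by
  intro K L h L' h'
  rw [← o.mean_shift L', ← o.inv_unit (Or.inl rfl)
    (pre K (lm (star s)) (ContinuousLinearMap.id ℂ (Alg M))) L
    (fun w u => by
      rw [h, pre_apply]
      show K (star s * w) u = K (star s * (s * star s * w)) u
      rw [mul_assoc s, o.ss_mul])
    (shift s 1 L') (fun w u => by rw [shift_apply, h', pow_one, pow_one, mul_assoc]; rfl)]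

theorem inv_of_mem {a : Alg M} (ha : a ∈ core s t) : o.Inv N a := by
  refine Algebra.adjoin_induction (p := fun x _ => o.Inv N x) ?_ o.inv_algebraMap
    (fun x y _ _ => o.inv_add) (fun x y _ _ => o.inv_mul) ha
  rintro x (rfl | rfl | rfl | rfl)
  · exact o.inv_s
  · exact o.inv_star_s
  · have e : (s * star x + x * star s) * s = x := by
      rw [add_mul, mul_assoc, mul_assoc x, o.ss, o.ts, mul_zero, mul_one, zero_add]
    have := o.inv_mul (o.inv_unit (N := N) (Or.inr rfl)) o.inv_s
    rwa [e] at this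
  · have e : star s * (s * star t + t * star s) = star t := by
      rw [mul_add, o.ss_mul, o.st_mul, add_zero]
    have := o.inv_mul o.inv_star_s (o.inv_unit (N := N) (Or.inr rfl))
    rwa [e] at this

/-- The mean is invariant under the whole algebra of the pair. -/
theorem mean_comm {a : Alg M} (ha : a ∈ core s t) {K L L' : Bil (Alg M) (Alg N)}
    (h : ∀ w u, L w u = K (a * w) u) (h' : ∀ w u, L' w u = K w (u * a)) :
    o.mean N L = o.mean N L' :=
  o.inv_of_mem ha K L h L' h'

end IsO2

attribute [irreducible] IsO2.mean IsO2.ces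

end Vale.Agent.P082.Every.B
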