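import Vale.Agent.P082.Every.B.Modular

/-!
# P082 (B): the sequences of the averaging step at a later slot
-/

namespace Vale.Agent.P082.Every.B

open Central (res merge hochDiff_res)
open Finset

universe u

/-- `[x₀, …, x_k w, u, x_(k+1), …]`. -/
def put {α : Type*} [Mul α] (k : ℕ) (w u : α) (x : ℕ → α) : ℕ → α :=
  ins (k + 1) u (Function.update x k (x k * w))

section
variable {α : Type*} [Semigroup α] (k : ℕ) (w u : α) (x : ℕ → α)

theorem put_lt {j : ℕ} (h : j < k) : put k w u x j = x j := by
  simp [put, ins, show j < k + 1 by omega, h.ne]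

theorem put_self : put k w u x k = x k * w := by simp [put, ins]

theorem put_succ : put k w u x (k + 1) = u := by simp [put, ins]

theorem put_gt {j : ℕ} (h : k < j) : put k w u x (j + 1) = x j := by
  simp [put, ins, show ¬ j + 1 < k + 1 by omega, h.ne']

theorem merge_ins_ins : merge k (ins (k + 1) w (ins (k + 1) u x)) = put k w u x := by
  rw [merge_ins_left]
  funext j
  rcases Nat.lt_trichotomy j k with h | rfl | h
  · simp [put, ins, h.ne, show j < k + 1 by omega]
  · simp [put, ins]
  · obtain ⟨i, rfl⟩ : ∃ i, j = i + 1 := ⟨j - 1, by omega⟩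
    rcases Nat.eq_or_lt_of_le (show k ≤ i by omega) with rfl | h'
    · simp [put, ins]
    · simp [put, ins, h'.ne', show ¬ i + 1 < k + 1 by omega, h.ne']

theorem merge_put_self : merge k (put k w u x) = Function.update x k (x k * (w * u)) := by
  funext j
  rcases Nat.lt_trichotomy j k with h | rfl | h
  · simp [merge, h, put_lt k w u x h, h.ne]
  · simp [merge, put_self, put_succ, mul_assoc]
  · simp [merge, show ¬ j < k by omega, h.ne', put_gt k w u x h]

theorem merge_put_succ : merge (k + 1) (put k w u x) =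
    put k w (u * x (k + 1)) (drop (k + 1) x) := by
  funext j
  rcases Nat.lt_trichotomy j (k + 1) with h | rfl | h
  · rcases Nat.eq_or_lt_of_le (show j ≤ k by omega) with rfl | h'
    · simp [merge, put_self, drop]
    · simp [merge, h, put_lt k w _ _ h', drop]
  · simp [merge, put_succ, put_gt k w u x (Nat.lt_succ_self k)]
  · obtain ⟨i, rfl⟩ : ∃ i, j = i + 1 := ⟨j - 1, by omega⟩
    simp [merge, show ¬ i + 1 < k + 1 by omega, show i ≠ k by omega,
      put_gt k w u x (show k < i + 1 by omega), put_gt k w _ _ (show k < i by omega), drop, show ¬ i ≤ k by omega]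

theorem merge_put_gt {q : ℕ} (hq : k < q) :
    merge (q + 1) (put k w u x) = put k w u (merge q x) := by
  funext j
  rcases Nat.lt_trichotomy j k with h | rfl | h
  · simp [merge, put_lt k w u _ h, show j < q + 1 by omega, show j < q by omega]
  · simp [merge, put_self, show j < q + 1 by omega, hq]
  · obtain ⟨i, rfl⟩ : ∃ i, j = i + 1 := ⟨j - 1, by omega⟩
    rcases Nat.eq_or_lt_of_le (show k ≤ i by omega) with rfl | h'
    · simp [merge, put_succ, hq]
    · rw [put_gt k w u (merge q x) h']
      rcases Nat.lt_trichotomy i q with h2 | rfl | h2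
      · simp [merge, h2, put_gt k w u x h']
      · simp [merge, put_gt k w u x h', put_gt k w u x (show k < i + 1 by omega)]
      · simp [merge, show ¬ i < q by omega, h2.ne',
          put_gt k w u x (show k < i + 1 by omega)]

theorem put_drop_mul (a : α) (ha : a = x (k + 1)) :
    put k (a * w) u (drop (k + 1) x) = put k w u (merge k x) := by
  subst ha
  funext j
  rcases Nat.lt_trichotomy j k with h | rfl | h
  · simp [put_lt k _ _ _ h, drop, merge, show j < k + 1 by omega, h]
  · simp [put_self, drop, merge, mul_assoc]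
  · obtain ⟨i, rfl⟩ : ∃ i, j = i + 1 := ⟨j - 1, by omega⟩
    rcases Nat.eq_or_lt_of_le (show k ≤ i by omega) with rfl | h'
    · simp [put_succ]
    · simp [put_gt k _ _ _ h', drop, merge, show ¬ i < k + 1 by omega, show ¬ i < k by omega,
        h'.ne']

theorem put_update_zero (a : α) :
    put k w u (Function.update x 0 (a * x 0)) =
      Function.update (put k w u x) 0 (a * put k w u x 0) := by
  funext j
  rcases Nat.eq_zero_or_pos j with rfl | hj
  · rcases Nat.eq_zero_or_pos k with rfl | hk
    · simp [put_self, mul_assoc]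
    · simp [put_lt k _ _ _ hk]
  rw [Function.update_of_ne hj.ne']
  rcases Nat.lt_trichotomy j k with h | rfl | h
  · simp [put_lt k _ _ _ h, hj.ne']
  · simp [put_self, hj.ne']
  · obtain ⟨i, rfl⟩ : ∃ i, j = i + 1 := ⟨j - 1, by omega⟩
    rcases Nat.eq_or_lt_of_le (show k ≤ i by omega) with rfl | h'
    · simp [put_succ]
    · simp [put_gt k _ _ _ h', show i ≠ 0 by omega]

theorem put_update_left {q : ℕ} (hq : q < k) (a : α) :
    put k w u (Function.update x q (x q * a)) =
      Function.update (put k w u x) q (put k w u x q * a) := by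
  funext j
  rcases eq_or_ne j q with rfl | hj
  · simp [put_lt k _ _ _ hq]
  rw [Function.update_of_ne hj]
  rcases Nat.lt_trichotomy j k with h | rfl | h
  · simp [put_lt k _ _ _ h, hj]
  · simp [put_self, hj]
  · obtain ⟨i, rfl⟩ : ∃ i, j = i + 1 := ⟨j - 1, by omega⟩
    rcases Nat.eq_or_lt_of_le (show k ≤ i by omega) with rfl | h'
    · simp [put_succ]
    · simp [put_gt k _ _ _ h', show i ≠ q by omega]

theorem put_update_right {q : ℕ} (hq : q ≤ k) (a : α) :
    put k w u (Function.update x q (a * x q)) =
      Function.update (put k w u x) q (a * put k w u x q) := by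
  funext j
  rcases eq_or_ne j q with rfl | hj
  · rcases Nat.eq_or_lt_of_le hq with rfl | h
    · simp [put_self, mul_assoc]
    · simp [put_lt k _ _ _ h]
  rw [Function.update_of_ne hj]
  rcases Nat.lt_trichotomy j k with h | rfl | h
  · simp [put_lt k _ _ _ h, hj]
  · simp [put_self, hj]
  · obtain ⟨i, rfl⟩ : ∃ i, j = i + 1 := ⟨j - 1, by omega⟩
    rcases Nat.eq_or_lt_of_le (show k ≤ i by omega) with rfl | h'
    · simp [put_succ]
    · simp [put_gt k _ _ _ h', show i ≠ q by omega]

end

variable {H : Type u} [NormedAddCommGroup H] [InnerProductSpace ℂ H] [CompleteSpace H]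
variable {M : VonNeumannAlgebra H} {k m : ℕ}

/-- The cocycle identity at `put k w u x`. -/
theorem slot_identity {f : Cochain M (k + 1 + m + 1)} (hf : ∀ a, hochDiff f a = 0)
    {A : Set (Alg M)} (hv : VanB f A (k + 1)) (x : ℕ → Alg M) (w : Alg M) {u : Alg M}
    (hu : u ∈ A) :
    (-1 : ℂ) ^ (k + 1) • f (res (k + 1 + m + 1) (Function.update x k (x k * (w * u)))) +
      (-1 : ℂ) ^ k • f (res (k + 1 + m + 1) (put k w (u * x (k + 1)) (drop (k + 1) x))) +
      (∑ j ∈ range m, (-1 : ℂ) ^ (k + 1 + j) •
        f (res (k + 1 + m + 1) (put k w u (merge (k + 1 + j) x)))) +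
      (-1 : ℂ) ^ (k + 1 + m) •
        (f (res (k + 1 + m + 1) (put k w u x)) * x (k + 1 + m)) = 0 := by
  have e := hf (res (k + 1 + m + 1 + 1) (put k w u x))
  have h1 : f (res (k + 1 + m + 1) fun j => put k w u x (j + 1)) = 0 :=
    hv _ k (by omega) (by omega) (by rwa [put_succ])
  have hlast : put k w u x (k + 1 + m + 1) = x (k + 1 + m) := put_gt k w u x (by omega)
  have hz : ∑ j ∈ range k, (-1 : ℂ) ^ (j + 1) •
      f (res (k + 1 + m + 1) (merge j (put k w u x))) = 0 := sum_eq_zero fun j hj => by
    rw [mem_range] at hj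
    rw [hv _ k (by omega) (by omega) (by
      simpa [merge, show ¬ k < j by omega, show k ≠ j by omega, put_succ] using hu), smul_zero]
  rw [hochDiff_res, h1, hlast, mul_zero, zero_add,
    show range (k + 1 + m + 1) = range (k + (m + 1 + 1)) by congr 1; omega, sum_range_add, hz,
    zero_add, sum_range_succ', sum_range_succ'] at e
  simp only [Nat.add_zero, Nat.zero_add, merge_put_self, merge_put_succ] at e
  have es : ∀ j, merge (k + (j + 1 + 1)) (put k w u x) = put k w u (merge (k + 1 + j) x) :=
    fun j => by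
      rw [show k + (j + 1 + 1) = k + 1 + j + 1 by omega, merge_put_gt k w u x (by omega)]
  simp only [es] at e
  have p1 : ∀ j : ℕ, (-1 : ℂ) ^ (k + (j + 1 + 1) + 1) = (-1) ^ (k + 1 + j) := fun j => by
    rw [show k + (j + 1 + 1) + 1 = k + 1 + j + 2 by omega, pow_add]; norm_num
  have p2 : (-1 : ℂ) ^ (k + 1 + 1) = (-1) ^ k := by
    rw [show k + 1 + 1 = k + 2 by omega, pow_add]; norm_num
  have p3 : (-1 : ℂ) ^ (k + 1 + m + 1 + 1) = (-1) ^ (k + 1 + m) := by
    rw [show k + 1 + m + 1 + 1 = k + 1 + m + 2 by omega, pow_add]; norm_num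
  simp only [p1, p2, p3] at e
  rw [← e]
  abel

end Vale.Agent.P082.Every.B
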