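import Vale.Agent.P082.Main
import Vale.Agent.P082.Every.B.Avg
import Vale.Agent.P082.Every.B.SlotLemmas

/-!
# P082 (B): a later slot
-/

namespace Vale.Agent.P082.Every.B

open Central (res merge hochDiff_res)
open Finset

universe u

variable {H : Type u} [NormedAddCommGroup H] [InnerProductSpace ℂ H] [CompleteSpace H]
variable {M : VonNeumannAlgebra H} {s t : Alg M} {k m : ℕ}

theorem res_update_linear {N : ℕ} (f : Cochain M N) (x : ℕ → Alg M) (q : Fin N) (v : Alg M) :
    f.toContinuousLinearMap (res N x) q v = f (res N (Function.update x q v)) := by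
  show f (Function.update (res N x) q v) = _
  congr 1
  funext j
  by_cases h : j = q
  · subst h; simp [res]
  · rw [Function.update_of_ne h]
    simp [res, Fin.val_injective.ne h]

/-- The averaged cochain of a later slot, and what it does. -/
theorem step_succ_aux (o : IsO2 s t) (f : Cochain M (k + 1 + m + 1))
    (hf : ∀ a, hochDiff f a = 0) (hv : VanB f (core s t : Set (Alg M)) (k + 1))
    (g : Cochain M (k + 1 + m)) (G : (ℕ → Alg M) → Bil (Alg M) (Alg M))
    (hg : ∀ x, g (res (k + 1 + m) x) = mu o (G x))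
    (hG : ∀ x w u, val (G x) w u = f (res (k + 1 + m + 1) (put k w u x))) :
    VanB g (core s t : Set (Alg M)) (k + 1) ∧ Modular g (core s t : Set (Alg M)) (k + 1) ∧
      ∀ x : ℕ → Alg M, x (k + 1) ∈ core s t →
        f (res (k + 1 + m + 1) x) =
          (-1 : ℂ) ^ (k + 1) • hochDiff g (res (k + 1 + m + 1) x) := by
  have hfm := modular_of_cocycle hf hv (by omega)
  have hvan : VanB g (core s t : Set (Alg M)) (k + 1) := by
    intro x j hj _ hx
    rw [hg]
    refine mu_eq_zero o _ fun w hw u _ => ?_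
    rw [hG]
    refine hv _ j hj (by omega) ?_
    rcases Nat.eq_or_lt_of_le (show j ≤ k by omega) with rfl | h
    · rw [put_self]; exact mul_mem hx hw
    · rw [put_lt k w u x h]; exact hx
  refine ⟨hvan, ⟨fun h a ha x => ?_, fun q hq a ha x => ?_⟩, fun x hx => ?_⟩
  · rw [hg, hg]
    refine (mu_left_mul o a _ _ fun w _ u _ => ?_).symm
    rw [hG, hG, put_update_zero]
    exact (hfm.left h a ha _).symm
  · rw [hg, hg]
    refine mu_congr o _ _ fun w _ u _ => ?_
    rw [hG, hG, put_update_left k w u x (by omega), put_update_right k w u x (by omega)]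
    exact hfm.mid q hq a ha _
  set ψ := (f.toContinuousLinearMap (res (k + 1 + m + 1) x) ⟨k, by omega⟩).comp (lm (x k)) with hψ
  have hψv : ∀ v, ψ v = f (res (k + 1 + m + 1) (Function.update x k (x k * v))) := fun v => by
    rw [hψ, ContinuousLinearMap.comp_apply, res_update_linear]
    rfl
  have h1 := mu_relation o (prodBil ψ) (preR (G (drop (k + 1) x)) (x (k + 1)))
    (mulR (G x) (x (k + 1 + m))) m ((-1 : ℂ) ^ (k + 1)) ((-1 : ℂ) ^ k) ((-1 : ℂ) ^ (k + 1 + m))
    (fun j => (-1 : ℂ) ^ (k + 1 + j)) (fun j => G (merge (k + 1 + j) x))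
    fun w _ u hu => by
      simp only [val_prodBil, val_preR, val_mulR, hG, hψv]
      exact slot_identity hf hv x w hu
  have hT : mu o (preR (G (drop (k + 1) x)) (x (k + 1))) = mu o (G (merge k x)) := by
    rw [mu_preR o hx]
    refine mu_congr o _ _ fun w _ u _ => ?_
    rw [val_preL, hG, hG, put_drop_mul k w u x _ rfl]
  rw [hT] at h1
  simp only [mu_prodBil, mu_mulR, ← hg, hψv, mul_one, Function.update_eq_self] at h1
  have hz : ∑ j ∈ range k, (-1 : ℂ) ^ (j + 1) • g (res (k + 1 + m) (merge j x)) = 0 :=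
    sum_eq_zero fun j hj => by
      rw [mem_range] at hj
      rw [hvan (merge j x) k (by omega) (by omega)
        (by simpa [merge, show ¬ k < j by omega, show k ≠ j by omega] using hx), smul_zero]
  rw [hochDiff_res, hvan (fun j => x (j + 1)) k (by omega) (by omega) hx, mul_zero, zero_add,
    show range (k + 1 + m) = range (k + (m + 1)) by congr 1; omega, sum_range_add, hz, zero_add,
    sum_range_succ']
  simp only [Nat.add_zero]
  have p1 : ∀ j : ℕ, (-1 : ℂ) ^ (k + 1 + j + 1) = -(-1) ^ (k + 1 + j) := fun j => by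
    rw [pow_succ, mul_neg_one]
  have p2 : (-1 : ℂ) ^ (k + 1) * (-1) ^ (k + 1) = 1 := by
    rw [← mul_pow]; norm_num
  have p3 : (-1 : ℂ) ^ (k + 1) = -(-1) ^ k := by rw [pow_succ, mul_neg_one]
  have es : ∀ j : ℕ, (-1 : ℂ) ^ (k + (j + 1) + 1) • g (res (k + 1 + m) (merge (k + (j + 1)) x)) =
      -((-1 : ℂ) ^ (k + 1 + j) • g (res (k + 1 + m) (merge (k + 1 + j) x))) := fun j => by
    rw [show k + (j + 1) = k + 1 + j by omega, p1, neg_smul]
  rw [show (-1 : ℂ) ^ (k + 1 + m + 1) = -(-1) ^ (k + 1 + m) by rw [pow_succ, mul_neg_one]]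
  simp only [es, sum_neg_distrib]
  have h2 := congrArg (fun y => (-1 : ℂ) ^ (k + 1) • y) h1
  simp only [smul_add, smul_zero, smul_smul, p2, one_smul] at h2
  rw [← sub_eq_zero, ← h2]
  simp only [p3, smul_add, smul_neg, neg_smul, smul_smul, neg_mul]
  abel

/-- Kill a later slot on the algebra of the pair. -/
theorem exists_step_succ (o : IsO2 s t) (f : Cochain M (k + 1 + m + 1))
    (hf : ∀ a, hochDiff f a = 0) (hv : VanB f (core s t : Set (Alg M)) (k + 1)) :
    ∃ g : Cochain M (k + 1 + m), (∀ x : ℕ → Alg M, ∀ j, j < k + 1 → x j ∈ core s t →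
        hochDiff g (res (k + 1 + m + 1) x) = 0) ∧
      ∀ x : ℕ → Alg M, x (k + 1) ∈ core s t →
        f (res (k + 1 + m + 1) x) = hochDiff g (res (k + 1 + m + 1) x) := by
  obtain ⟨h1, h2, h3⟩ := step_succ_aux o f hf hv
    (avgC o (mergeC f ⟨k, by omega⟩) ⟨k + 1, by omega⟩)
    (bilAt (mergeC f ⟨k, by omega⟩) ⟨k + 1, by omega⟩) (fun x => avgC_res o _ _ x)
    fun x w u => by rw [val_bilAt, mergeC_res, merge_ins_ins]
  refine ⟨(-1 : ℂ) ^ (k + 1) • avgC o (mergeC f ⟨k, by omega⟩) ⟨k + 1, by omega⟩,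
    fun x j hj hx => ?_, fun x hx => ?_⟩
  · rw [hochDiff_smul, vanB_hochDiff h1 h2 (by omega) hj hx, smul_zero]
  · rw [hochDiff_smul]
    exact h3 x hx

end Vale.Agent.P082.Every.B
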