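import Vale.Agent.P082.Every.B.StepZero
import Vale.Agent.P082.Every.B.StepSucc

/-!
# P082 (B): cocycles that vanish on the algebra of the pair
-/

namespace Vale.Agent.P082.Every.B

open Central (res merge hochDiff_res hochDiff_add)

universe u

variable {H : Type u} [NormedAddCommGroup H] [InnerProductSpace ℂ H] [CompleteSpace H]
variable {M : VonNeumannAlgebra H} {s t : Alg M} {n : ℕ}

theorem exists_step (o : IsO2 s t) (f : Cochain M (n + 1)) (hf : ∀ a, hochDiff f a = 0) {i : ℕ}
    (hi : i ≤ n) (hv : VanB f (core s t : Set (Alg M)) i) :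
    ∃ g : Cochain M n, (∀ x : ℕ → Alg M, ∀ j, j < i → x j ∈ core s t →
        hochDiff g (res (n + 1) x) = 0) ∧
      ∀ x : ℕ → Alg M, x i ∈ core s t → f (res (n + 1) x) = hochDiff g (res (n + 1) x) := by
  rcases i with _ | k
  · obtain ⟨g, hg⟩ := exists_step_zero o f hf
    exact ⟨g, fun x j hj => absurd hj (Nat.not_lt_zero j), hg⟩
  · obtain ⟨m, rfl⟩ : ∃ m, n = k + 1 + m := ⟨n - (k + 1), by omega⟩
    exact exists_step_succ o f hf hv

/-- `f - dg`. -/
noncomputable def corr (f : Cochain M (n + 1)) (g : Cochain M n) : Cochain M (n + 1) :=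
  f + (-1 : ℂ) • dC g

theorem corr_apply (f : Cochain M (n + 1)) (g : Cochain M n) (a : Fin (n + 1) → Alg M) :
    corr f g a = f a - hochDiff g a := by
  rw [corr, add_apply, smul_apply, dC_apply, neg_one_smul, sub_eq_add_neg]

theorem hochDiff_corr {f : Cochain M (n + 1)} (hf : ∀ a, hochDiff f a = 0) (g : Cochain M n)
    (a : Fin (n + 1 + 1) → Alg M) : hochDiff (corr f g) a = 0 := by
  rw [corr, hochDiff_add, hochDiff_smul, hf, hochDiff_dC, smul_zero, add_zero]

/-- Up to a coboundary a cocycle vanishes when some argument lies in the algebra of the pair. -/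
theorem exists_normalised (o : IsO2 s t) (f : Cochain M (n + 1)) (hf : ∀ a, hochDiff f a = 0) :
    ∀ i ≤ n + 1, ∃ g : Cochain M n, VanB (corr f g) (core s t : Set (Alg M)) i := by
  intro i
  induction i with
  | zero => exact fun _ => ⟨0, fun x j hj => absurd hj (Nat.not_lt_zero j)⟩
  | succ i ih =>
    intro hi
    obtain ⟨g, hg⟩ := ih (by omega)
    obtain ⟨g', hg0, hg1⟩ := exists_step o (corr f g) (hochDiff_corr hf g) (by omega) hg
    refine ⟨g + g', fun x j hj hjn hx => ?_⟩
    rw [corr_apply, hochDiff_add, ← sub_sub, ← corr_apply]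
    rcases Nat.eq_or_lt_of_le (Nat.lt_succ_iff.1 hj) with rfl | h
    · rw [hg1 x hx, sub_self]
    · rw [hg x j h hjn hx, hg0 x j h hx, sub_zero]

end Vale.Agent.P082.Every.B
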