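import Vale.Agent.P082.Every.B.Seq

/-!
# P082 (B): the square of the differential vanishes
-/

namespace Vale.Agent.P082.Every.B

open Central (res merge hochDiff_res)
open Finset

universe u

variable {H : Type u} [NormedAddCommGroup H] [InnerProductSpace ℂ H] [CompleteSpace H]
variable {M : VonNeumannAlgebra H}

/-- The faces of a function of sequences with `n` relevant entries. -/
noncomputable def face (n : ℕ) (G : (ℕ → Alg M) → Alg M) (i : ℕ) (x : ℕ → Alg M) : Alg M :=
  if i = 0 then x 0 * G (fun m => x (m + 1))
  else if i ≤ n then G (merge (i - 1) x) else G x * x n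

theorem hochDiff_eq_face {n : ℕ} (g : Cochain M n) (x : ℕ → Alg M) :
    hochDiff g (res (n + 1) x) =
      ∑ i ∈ range (n + 2), (-1 : ℂ) ^ i • face n (fun y => g (res n y)) i x := by
  rw [hochDiff_res, sum_range_succ, sum_range_succ']
  have h : ∀ j ∈ range n, (-1 : ℂ) ^ (j + 1) • face n (fun y => g (res n y)) (j + 1) x =
      (-1 : ℂ) ^ (j + 1) • g (res n (merge j x)) := fun j hj => by
    rw [face, if_neg (by omega), if_pos (by have := mem_range.1 hj; omega), Nat.add_sub_cancel]
  rw [sum_congr rfl h, face, if_pos rfl, face, if_neg (by omega), if_neg (by omega), pow_zero,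
    one_smul]
  abel

theorem merge_merge {α : Type*} [Semigroup α] {p q : ℕ} (h : p ≤ q) (x : ℕ → α) :
    merge p (merge (q + 1) x) = merge q (merge p x) := by
  funext m
  rcases lt_trichotomy m p with h1 | rfl | h1
  · simp [merge, h1, show m < q + 1 by omega, show m < q by omega]
  · rcases Nat.eq_or_lt_of_le h with rfl | h2
    · simp [merge, mul_assoc, show ¬ m + 1 < m by omega]
    · simp [merge, h2, show m < q + 1 by omega, show m + 1 < q + 1 by omega]
  · rcases lt_trichotomy m q with h2 | rfl | h2
    · simp [merge, h2, show ¬ m < p by omega, show m ≠ p by omega, show m + 1 < q + 1 by omega]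
    · simp [merge, show ¬ m < p by omega, show m ≠ p by omega, show ¬ m + 1 < p by omega,
        show m + 1 ≠ p by omega]
    · simp [merge, show ¬ m < p by omega, show m ≠ p by omega, show ¬ m + 1 < p by omega,
        show m + 1 ≠ p by omega, show ¬ m < q by omega, show m ≠ q by omega,
        show ¬ m + 1 < q + 1 by omega]

theorem face_face (n : ℕ) (g : Cochain M n) (x : ℕ → Alg M) {i j : ℕ} (hji : j < i)
    (hi : i ≤ n + 2) :
    face (n + 1) (face n (fun y => g (res n y)) j) i x =
      face (n + 1) (face n (fun y => g (res n y)) (i - 1)) j x := by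
  obtain ⟨l, rfl⟩ : ∃ l, i = l + 1 := ⟨i - 1, by omega⟩
  simp only [Nat.add_sub_cancel]
  rcases Nat.eq_zero_or_pos j with rfl | hj
  · rcases Nat.lt_or_ge (l + 1) (n + 2) with h | h
    · rcases Nat.eq_zero_or_pos l with rfl | hl
      · simp [face, merge, mul_assoc]
      · obtain ⟨q, rfl⟩ : ∃ q, l = q + 1 := ⟨l - 1, by omega⟩
        simp only [face, if_pos, if_neg (show ¬ q + 1 + 1 = 0 by omega),
          if_pos (show q + 1 + 1 ≤ n + 1 by omega), if_neg (show ¬ q + 1 = 0 by omega),
          if_pos (show q + 1 ≤ n by omega), Nat.add_sub_cancel]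
        rw [show merge (q + 1) x 0 = x 0 by simp [merge]]
        congr 3
        funext m
        simp only [merge]
        split_ifs <;> first | omega | rfl
    · obtain rfl : l = n + 1 := by omega
      simp [face, mul_assoc, show ¬ n + 1 + 1 ≤ n + 1 by omega]
  obtain ⟨p, rfl⟩ : ∃ p, j = p + 1 := ⟨j - 1, by omega⟩
  rcases Nat.lt_or_ge (l + 1) (n + 2) with h | h
  · obtain ⟨q, rfl⟩ : ∃ q, l = q + 1 := ⟨l - 1, by omega⟩
    simp only [face, if_neg (show ¬ q + 1 + 1 = 0 by omega), if_neg (show ¬ q + 1 = 0 by omega),
      if_neg (show ¬ p + 1 = 0 by omega), if_pos (show q + 1 + 1 ≤ n + 1 by omega),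
      if_pos (show q + 1 ≤ n by omega), if_pos (show p + 1 ≤ n + 1 by omega),
      if_pos (show p + 1 ≤ n by omega), Nat.add_sub_cancel]
    rw [merge_merge (by omega)]
  · obtain rfl : l = n + 1 := by omega
    rcases Nat.lt_or_ge (p + 1) (n + 1) with hp | hp
    · simp only [face, if_neg (show ¬ n + 1 + 1 = 0 by omega),
        if_neg (show ¬ n + 1 + 1 ≤ n + 1 by omega), if_neg (show ¬ n + 1 = 0 by omega),
        if_neg (show ¬ n + 1 ≤ n by omega), if_neg (show ¬ p + 1 = 0 by omega),
        if_pos (show p + 1 ≤ n + 1 by omega), if_pos (show p + 1 ≤ n by omega),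
        Nat.add_sub_cancel]
      rw [show merge p x n = x (n + 1) by simp [merge, show ¬ n < p by omega, show n ≠ p by omega]]
    · obtain rfl : p = n := by omega
      simp only [face, if_neg (show ¬ p + 1 + 1 = 0 by omega),
        if_neg (show ¬ p + 1 + 1 ≤ p + 1 by omega), if_neg (show ¬ p + 1 = 0 by omega),
        if_neg (show ¬ p + 1 ≤ p by omega), if_pos (le_refl (p + 1)), Nat.add_sub_cancel]
      rw [res_congr (N := p) (s := merge p x) (s' := x) (fun m hm => by simp [merge, hm]),
        show merge p x p = x p * x (p + 1) by simp [merge], mul_assoc]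

/-- The square of the differential vanishes. -/
theorem hochDiff_dC {n : ℕ} (g : Cochain M n) (a : Fin (n + 1 + 1) → Alg M) :
    hochDiff (dC g) a = 0 := by
  obtain ⟨x, rfl⟩ := exists_res a
  set G : (ℕ → Alg M) → Alg M := fun y => g (res n y) with hG
  have hlin : ∀ i y, face (n + 1) (fun z => dC g (res (n + 1) z)) i y =
      ∑ j ∈ range (n + 2), (-1 : ℂ) ^ j • face (n + 1) (face n G j) i y := by
    intro i y
    simp only [face, dC_apply, hochDiff_eq_face]
    split_ifs <;> simp [Finset.mul_sum, Finset.sum_mul, hG]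
  rw [hochDiff_eq_face]
  simp only [hlin, smul_sum, smul_smul, ← pow_add]
  rw [← Finset.sum_product']
  refine Finset.sum_involution
    (fun ij _ => if ij.2 < ij.1 then (ij.2, ij.1 - 1) else (ij.2 + 1, ij.1)) ?_ ?_ ?_ ?_
  · rintro ⟨i, j⟩ hij
    rw [mem_product, mem_range, mem_range] at hij
    dsimp only
    split_ifs with h
    · dsimp only
      rw [hG, face_face n g x h (by omega), show i + j = j + (i - 1) + 1 by omega, pow_succ,
        mul_neg_one, neg_smul, neg_add_cancel]
    · dsimp only
      rw [hG, face_face n g x (i := j + 1) (j := i) (by omega) (by omega), Nat.add_sub_cancel,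
        show j + 1 + i = i + j + 1 by omega, pow_succ, mul_neg_one, neg_smul, add_neg_cancel]
  · rintro ⟨i, j⟩ _ _
    dsimp only
    split_ifs <;> simp only [ne_eq, Prod.mk.injEq, not_and] <;> omega
  · rintro ⟨i, j⟩ hij
    rw [mem_product, mem_range, mem_range] at hij
    dsimp only
    split_ifs <;> simp only [mem_product, mem_range] <;> omega
  · rintro ⟨i, j⟩ hij
    dsimp only
    by_cases h : j < i
    · simp only [if_pos h, if_neg (show ¬ i - 1 < j by omega)]
      exact Prod.ext (show i - 1 + 1 = i by omega) rfl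
    · simp [h, show i < j + 1 by omega]

end Vale.Agent.P082.Every.B
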