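import Vale.Agent.P082.Main
import Vale.Agent.P082.Every.B.Avg
import Vale.Agent.P082.Every.B.Modular
import Vale.Agent.P082.Every.B.Square

/-!
# P082 (B): the first slot
-/

namespace Vale.Agent.P082.Every.B

open Central (res merge hochDiff_res)
open Finset

universe u

variable {H : Type u} [NormedAddCommGroup H] [InnerProductSpace ℂ H] [CompleteSpace H]
variable {M : VonNeumannAlgebra H} {s t : Alg M} {n : ℕ}

/-- The cocycle identity with a letter in front. -/
theorem head_identity (f : Cochain M (n + 1)) (hf : ∀ a, hochDiff f a = 0) (x : ℕ → Alg M)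
    (w u : Alg M) :
    (1 : ℂ) • (w * u * f (res (n + 1) x)) +
        w * f (res (n + 1) (ins 0 (u * -x 0) fun m => x (m + 1))) +
      (∑ j ∈ range n, (-1 : ℂ) ^ j • (w * f (res (n + 1) (ins 0 u (merge j x))))) +
      (-1 : ℂ) ^ n • (w * f (res (n + 1) (ins 0 u x)) * x n) = 0 := by
  have e := congrArg (w * ·) (hf (res (n + 1 + 1) (ins 0 u x)))
  simp only [mul_zero] at e
  rw [hochDiff_res, tail_ins_zero, ins_self, sum_range_succ'] at e
  have e0 : merge 0 (ins 0 u x) = ins 0 (u * x 0) (fun m => x (m + 1)) := by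
    funext m
    rcases m with _ | m <;> simp [merge, ins]
  have ej : ∀ j, merge (j + 1) (ins 0 u x) = ins 0 u (merge j x) := by
    intro j
    funext m
    rcases m with _ | m
    · simp [merge, ins]
    · simp [merge, ins]
  have el : ins 0 u x (n + 1) = x n := by simp [ins]
  have eneg : f (res (n + 1) (ins 0 (u * -x 0) fun m => x (m + 1))) =
      -f (res (n + 1) (ins 0 (u * x 0) fun m => x (m + 1))) := by
    have h := map_neg (f.curryMid 0 : Alg M →L[ℂ] Cochain M n) (u * x 0)
    have h' := congrArg (fun g : Cochain M n => g (res n fun m => x (m + 1))) h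
    simp only [neg_apply, curryMid_res, Fin.val_zero] at h'
    rw [mul_neg]
    exact h'
  simp only [ej, e0, el, mul_add, mul_sum, mul_smul_comm, pow_succ, pow_zero, mul_one,
    neg_neg, neg_smul, one_smul, mul_neg] at e
  rw [eneg, ← e, mul_assoc w u, mul_assoc w, one_smul, mul_neg]
  abel

/-- Kill the first slot on the algebra of the pair. -/
theorem exists_step_zero (o : IsO2 s t) (f : Cochain M (n + 1)) (hf : ∀ a, hochDiff f a = 0) :
    ∃ g : Cochain M n, ∀ x : ℕ → Alg M, x 0 ∈ core s t →
      f (res (n + 1) x) = hochDiff g (res (n + 1) x) := by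
  refine ⟨avgC o (firstC f) 0, fun x hx => ?_⟩
  set G : (ℕ → Alg M) → Bil (Alg M) (Alg M) := bilAt (firstC f) 0 with hG
  have hval : ∀ y w u, val (G y) w u = w * f (res (n + 1) (ins 0 u y)) := fun y w u => by
    rw [hG, val_bilAt, firstC_res, Fin.val_zero, tail_ins_zero, ins_self]
  have h1 := mu_relation o (constR (f (res (n + 1) x))) (preR (G fun m => x (m + 1)) (-x 0))
    (mulR (G x) (x n)) n 1 1 ((-1 : ℂ) ^ n) (fun j => (-1 : ℂ) ^ j) (fun j => G (merge j x))
    fun w _ u _ => by
      simp only [val_constR, val_preR, val_mulR, hval]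
      rw [one_smul ℂ (w * f _)]
      exact head_identity f hf x w u
  have hT1 : mu o (preR (G fun m => x (m + 1)) (-x 0)) = -x 0 * mu o (G fun m => x (m + 1)) := by
    rw [mu_preR o (neg_mem hx)]
    refine mu_left_mul o (-x 0) _ _ fun w _ u _ => ?_
    simp only [val_preL, hval, mul_assoc]
  rw [hT1] at h1
  simp only [mu_constR, mu_mulR, hG, ← avgC_res, one_smul, neg_mul] at h1
  rw [hochDiff_res]
  simp only [pow_succ, mul_neg_one, neg_smul, sum_neg_distrib]
  rw [← sub_eq_zero, ← h1]
  abel

end Vale.Agent.P082.Every.B
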